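import Vale.Agent.P091.H690.Growth

set_option linter.all false

namespace Vale.Agent.P091

open Finset MeasureTheory AddCircle

variable {T : ℝ} [hT : Fact (0 < T)]

theorem eps_of_tendsto (ψ : ℕ → ℝ)
    (h : Filter.Tendsto (fun N : ℕ => ψ N / Real.sqrt (Real.log N)) Filter.atTop (nhds 0)) :
    ∀ η : ℝ, 0 < η → ∃ N₀ : ℕ, ∀ m : ℕ, N₀ ≤ m → ψ m ≤ η * Real.sqrt (Real.log m) := by
  intro η hη
  obtain ⟨N₀, hN₀⟩ := Filter.eventually_atTop.1 (h.eventually (gt_mem_nhds hη))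
  refine ⟨max N₀ 2, fun m hm => ?_⟩
  have h1 := hN₀ m ((le_max_left _ _).trans hm)
  have hm2 : 2 ≤ m := (le_max_right _ _).trans hm
  have hlog : 0 < Real.log m := Real.log_pos (by exact_mod_cast (by omega : 1 < m))
  rw [div_lt_iff₀ (by positivity)] at h1
  exact h1.le

/-- general form, no regularity of `φ` -/
theorem growth_gen (φ : ℝ → ℝ) (hφ0 : ∀ u, 0 ≤ u → 0 ≤ φ u)
    (hφm : MonotoneOn φ (Set.Ici 0)) (ψ : ℕ → ℝ) (hψ0 : ∀ N, 0 < ψ N)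
    (hψ : Filter.Tendsto (fun N : ℕ => ψ N / Real.sqrt (Real.log N)) Filter.atTop (nhds 0))
    (hφψ : ∀ η : ℝ, 0 < η → ∀ᶠ N : ℕ in Filter.atTop, ∀ u : ℝ, 1 ≤ u → u ≤ N →
      φ u * ψ N ≤ η * (u * Real.sqrt (Real.log N))) :
    ∃ f : AddCircle T → ℂ, Integrable f haarAddCircle ∧
      Integrable (fun x => φ ‖f x‖) haarAddCircle ∧
      (∀ k : ℤ, k ≤ 0 → fourierCoeff f k = 0) ∧
      ∀ x : AddCircle T, ¬ BddAbove (Set.range fun N : ℕ =>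
        ‖∑ k ∈ Finset.Icc (-(N : ℤ)) (N : ℤ), fourierCoeff f k * fourier k x‖ / ψ N) :=
  growth_general φ hφ0 hφm ψ hψ0 (eps_of_tendsto ψ hψ)
    fun η hη => Filter.eventually_atTop.1 (hφψ η hη)

/-- Konyagin's form -/
theorem growth_konyagin (φ : ℝ → ℝ) (hφ0 : ∀ u, 0 ≤ u → 0 ≤ φ u)
    (hφm : MonotoneOn φ (Set.Ici 0)) (hφr : MonotoneOn (fun u => φ u / u) (Set.Ioi 0))
    (hφpos : ∃ u, 0 < u ∧ 0 < φ u) (ψ : ℕ → ℝ) (hψ0 : ∀ N, 0 < ψ N)
    (hlim : Filter.Tendsto (fun m : ℕ => φ m * ψ m / (m * Real.sqrt (Real.log m)))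
      Filter.atTop (nhds 0)) :
    ∃ f : AddCircle T → ℂ, Integrable f haarAddCircle ∧
      Integrable (fun x => φ ‖f x‖) haarAddCircle ∧
      (∀ k : ℤ, k ≤ 0 → fourierCoeff f k = 0) ∧
      ∀ x : AddCircle T, ¬ BddAbove (Set.range fun N : ℕ =>
        ‖∑ k ∈ Finset.Icc (-(N : ℤ)) (N : ℤ), fourierCoeff f k * fourier k x‖ / ψ N) := by
  obtain ⟨u₀, hu₀, hφu₀⟩ := hφpos
  have hc₁ : 0 < φ u₀ / u₀ := div_pos hφu₀ hu₀
  have hev : ∀ η : ℝ, 0 < η → ∃ N₀ : ℕ, 2 ≤ N₀ ∧ ∀ m : ℕ, N₀ ≤ m →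
      φ m * ψ m ≤ η * (m * Real.sqrt (Real.log m)) := by
    intro η hη
    obtain ⟨N₀, hN₀⟩ := Filter.eventually_atTop.1 (hlim.eventually (gt_mem_nhds hη))
    refine ⟨max N₀ 2, le_max_right _ _, fun m hm => ?_⟩
    have h1 := hN₀ m ((le_max_left _ _).trans hm)
    have hm2 : 2 ≤ m := (le_max_right _ _).trans hm
    have hm0 : (0 : ℝ) < m := by exact_mod_cast (by omega : 0 < m)
    have hlog : 0 < Real.log m := Real.log_pos (by exact_mod_cast (by omega : 1 < m))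
    rw [div_lt_iff₀ (by positivity)] at h1
    exact h1.le
  refine growth_general φ hφ0 hφm ψ hψ0 ?_ ?_
  · intro η hη
    obtain ⟨N₀, hN2, hN₀⟩ := hev (φ u₀ / u₀ * η) (by positivity)
    refine ⟨N₀ + ⌈u₀⌉₊, fun m hm => ?_⟩
    have h1 := hN₀ m (by omega)
    have hm0 : (0 : ℝ) < m := by exact_mod_cast (by omega : 0 < m)
    have hmu : u₀ ≤ m := (Nat.le_ceil u₀).trans (by exact_mod_cast (by omega : ⌈u₀⌉₊ ≤ m))
    have h2 : φ u₀ / u₀ ≤ φ m / m := hφr (Set.mem_Ioi.2 hu₀) (Set.mem_Ioi.2 hm0) hmu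
    rw [le_div_iff₀ hm0] at h2
    have h3 : φ u₀ / u₀ * m * ψ m ≤ φ m * ψ m := mul_le_mul_of_nonneg_right h2 (hψ0 m).le
    have h4 : (φ u₀ / u₀ * m) * ψ m ≤ (φ u₀ / u₀ * m) * (η * Real.sqrt (Real.log m)) := by
      linarith
    exact le_of_mul_le_mul_left h4 (by positivity)
  · intro η hη
    obtain ⟨N₀, hN2, hN₀⟩ := hev η hη
    refine ⟨N₀, fun m hm u hu1 hum => ?_⟩
    have h1 := hN₀ m hm
    have hm0 : (0 : ℝ) < m := by linarith
    have hu0 : 0 < u := by linarith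
    have h2 : φ u / u ≤ φ m / m := hφr (Set.mem_Ioi.2 hu0) (Set.mem_Ioi.2 hm0) hum
    rw [div_le_div_iff₀ hu0 hm0] at h2
    have h3 : φ u * m * ψ m ≤ φ m * u * ψ m := mul_le_mul_of_nonneg_right h2 (hψ0 m).le
    have h4 : φ m * ψ m * u ≤ η * (m * Real.sqrt (Real.log m)) * u :=
      mul_le_mul_of_nonneg_right h1 hu0.le
    have h5 : m * (φ u * ψ m) ≤ m * (η * (u * Real.sqrt (Real.log m))) := by linarith
    exact le_of_mul_le_mul_left h5 hm0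

/-- growth of the partial sums of an integrable function of power series type -/
theorem growth_pure (ψ : ℕ → ℝ) (hψ0 : ∀ N, 0 < ψ N)
    (hψ : Filter.Tendsto (fun N : ℕ => ψ N / Real.sqrt (Real.log N)) Filter.atTop (nhds 0)) :
    ∃ f : AddCircle T → ℂ, Integrable f haarAddCircle ∧
      (∀ k : ℤ, k ≤ 0 → fourierCoeff f k = 0) ∧
      ∀ x : AddCircle T, ¬ BddAbove (Set.range fun N : ℕ =>
        ‖∑ k ∈ Finset.Icc (-(N : ℤ)) (N : ℤ), fourierCoeff f k * fourier k x‖ / ψ N) := by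
  obtain ⟨f, h1, -, h2, h3⟩ := growth_gen (T := T) (fun _ => 0) (fun _ _ => le_rfl)
    (fun _ _ _ _ _ => le_rfl) ψ hψ0 hψ (by
      intro η hη
      refine Filter.Eventually.of_forall fun N u hu _ => ?_
      rw [zero_mul]
      positivity)
  exact ⟨f, h1, h2, h3⟩

end Vale.Agent.P091
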