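import Vale.Agent.P091.H690.MainLemma3

set_option linter.all false

namespace Vale.Agent.P091

open Finset MeasureTheory AddCircle

variable {T : ℝ}

/-- general block with frequencies in `[lo p, hi p]` -/
noncomputable def gb (lo hi : ℕ → ℤ) (e : ℕ → ℤ → ℂ) (p : ℕ) (x : AddCircle T) : ℂ :=
  ∑ k ∈ Icc (lo p) (hi p), e p k * fourier k x

theorem continuous_gb (lo hi : ℕ → ℤ) (e : ℕ → ℤ → ℂ) (p : ℕ) :
    Continuous (gb lo hi e p : AddCircle T → ℂ) := by
  unfold gb
  (clear * -; fun_prop)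

variable [hT : Fact (0 < T)]

theorem fourierCoeff_gb (lo hi : ℕ → ℤ) (e : ℕ → ℤ → ℂ) (p : ℕ) (k : ℤ) :
    fourierCoeff (gb lo hi e p : AddCircle T → ℂ) k =
      if lo p ≤ k ∧ k ≤ hi p then e p k else 0 := by
  have h0 : (gb lo hi e p : AddCircle T → ℂ) = ∑ l ∈ Icc (lo p) (hi p),
      fun x => e p l * fourier l x := by
    ext x
    simp only [gb, Finset.sum_apply]
  rw [h0, fourierCoeff.sum _ _ (fun l _ => integrable_of_continuous (by (clear * -; fun_prop)))]
  simp only [Finset.sum_apply, fourierCoeff.const_mul]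
  have : ∀ l : ℤ, fourierCoeff (fun x : AddCircle T => fourier l x) k
      = if l = k then 1 else 0 := by
    intro l
    have := congrFun (fourierCoeff_fourier (T := T) l) k
    rw [this, Pi.single_apply]
    simp only [eq_comm]
  simp only [this, mul_ite, mul_one, mul_zero]
  rw [Finset.sum_ite_eq']
  simp only [Finset.mem_Icc]

theorem glide_gen (lo hi : ℕ → ℤ) (e : ℕ → ℤ → ℂ) (hlo : ∀ p, 1 ≤ lo p)
    (hdisj : ∀ p p' k, lo p ≤ k → k ≤ hi p → lo p' ≤ k → k ≤ hi p' → p = p')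
    (hsum : Summable fun p => ∫ x, ‖(gb lo hi e p x : ℂ)‖ ∂(haarAddCircle (T := T))) :
    ∃ f : AddCircle T → ℂ, Integrable f haarAddCircle ∧
      (∀ k : ℤ, k ≤ 0 → fourierCoeff f k = 0) ∧
      (∀ x, Summable (fun p => ‖gb lo hi e p x‖) → ‖f x‖ ≤ ∑' p, ‖gb lo hi e p x‖) ∧
      ∀ (p N₁ N₂ : ℕ), lo p ≤ (N₁ : ℤ) + 1 → N₁ ≤ N₂ → (N₂ : ℤ) ≤ hi p → ∀ x,
        partialS f N₂ x - partialS f N₁ x = ∑ k ∈ Icc ((N₁ : ℤ) + 1) N₂, e p k * fourier k x := by
  have hint : ∀ p, Integrable (gb lo hi e p : AddCircle T → ℂ) haarAddCircle := fun p =>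
    integrable_of_continuous (continuous_gb lo hi e p)
  obtain ⟨hae, hfint⟩ := ae_summable_and_integrable_tsum hint hsum
  have hcoeff : ∀ k : ℤ, fourierCoeff (fun x : AddCircle T => ∑' p, gb lo hi e p x) k =
      ∑' p, fourierCoeff (gb lo hi e p : AddCircle T → ℂ) k := by
    intro k
    have h2 := integral_tsum_of_summable_integral_norm (μ := haarAddCircle (T := T))
      (F := fun p (t : AddCircle T) => fourier (-k) t • (gb lo hi e p t : ℂ))
      (fun p => (hint p).fourier_smul (-k)) (by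
        convert hsum using 2 with p
        congr 1
        ext x
        rw [norm_smul, fourier_apply, Circle.norm_coe, one_mul])
    unfold fourierCoeff
    rw [h2]
    congr 1
    ext t
    simp only [smul_eq_mul, tsum_mul_left]
  have hneg : ∀ k : ℤ, k ≤ 0 →
      fourierCoeff (fun x : AddCircle T => ∑' p, gb lo hi e p x) k = 0 := by
    intro k hk
    rw [hcoeff, ← tsum_zero (α := ℂ) (β := ℕ)]
    congr 1
    ext p
    rw [fourierCoeff_gb, if_neg]
    intro h
    have := hlo p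
    omega
  refine ⟨fun x => ∑' p, gb lo hi e p x, hfint, hneg, ?_, ?_⟩
  · intro x hx
    exact norm_tsum_le_tsum_norm hx
  · have hpos : ∀ (p : ℕ) (k : ℤ), lo p ≤ k → k ≤ hi p →
        fourierCoeff (fun x : AddCircle T => ∑' p, gb lo hi e p x) k = e p k := by
      intro p k h1 h2
      rw [hcoeff, tsum_eq_single p]
      · rw [fourierCoeff_gb, if_pos ⟨h1, h2⟩]
      · intro i hij
        rw [fourierCoeff_gb, if_neg]
        intro h
        exact hij (hdisj i p k h.1 h.2 h1 h2)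
    intro p N₁ N₂ hn₁ hn hn₂ x
    set g : ℤ → ℂ := fun k =>
      fourierCoeff (fun x : AddCircle T => ∑' p, gb lo hi e p x) k * fourier k x with hg
    have hsub : Icc (-(N₁ : ℤ)) (N₁ : ℤ) ⊆ Icc (-(N₂ : ℤ)) (N₂ : ℤ) :=
      Finset.Icc_subset_Icc (by omega) (by omega)
    have hdiff : partialS (fun x : AddCircle T => ∑' p, gb lo hi e p x) N₂ x
        - partialS (fun x : AddCircle T => ∑' p, gb lo hi e p x) N₁ x =
        ∑ k ∈ Icc ((N₁ : ℤ) + 1) N₂, g k := by
      unfold partialS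
      rw [← Finset.sum_sdiff hsub, add_sub_cancel_right]
      symm
      apply Finset.sum_subset
      · intro k hk
        simp only [Finset.mem_Icc, Finset.mem_sdiff] at hk ⊢
        omega
      · intro k hk hk'
        simp only [Finset.mem_Icc, Finset.mem_sdiff] at hk hk'
        have : k ≤ 0 := by omega
        simp only [hg, hneg k this, zero_mul]
    rw [hdiff]
    refine Finset.sum_congr rfl fun k hk => ?_
    simp only [Finset.mem_Icc] at hk
    simp only [hg]
    rw [hpos p k (by omega) (by omega)]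

/-- a version of `phi_bound` with general weights -/
theorem phi_bound_w (φ : ℝ → ℝ) (hφm : MonotoneOn φ (Set.Ici 0))
    (g κ w : ℕ → ℝ) (hg : ∀ j, 0 ≤ g j) (hκ : ∀ j, 0 ≤ κ j) (hgs : Summable g)
    (hκs : Summable fun j => κ j * g j) (hw : ∀ j, 0 < w j) (hws : HasSum w 1) (hφ0 : 0 ≤ φ 1)
    (h : ∀ j, 1 ≤ g j / w j → φ (g j / w j) ≤ κ j * g j)
    (F : ℝ) (hF0 : 0 ≤ F) (hF : F ≤ ∑' j, g j) :
    φ F ≤ φ 1 + ∑' j, κ j * g j := by
  have hS0 : 0 ≤ ∑' j, κ j * g j := tsum_nonneg fun j => mul_nonneg (hκ j) (hg j)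
  by_cases hF1 : F ≤ 1
  · have : φ F ≤ φ 1 := hφm (Set.mem_Ici.2 hF0) (Set.mem_Ici.2 zero_le_one) hF1
    linarith only [hS0, this]
  push Not at hF1
  set H : ℝ := ∑' j, g j with hH
  rcases (hF0.trans hF).eq_or_lt with hH0 | hHpos
  · exfalso; linarith only [hF1, hF, hH0]
  · obtain ⟨j, hj⟩ : ∃ j, w j * H ≤ g j := by
      by_contra hcon
      push Not at hcon
      have h1 : ∑' j, g j < ∑' j : ℕ, w j * H :=
        hgs.tsum_lt_tsum (i := 0) (fun j => (hcon j).le) (hcon 0) (hws.summable.mul_right H)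
      rw [tsum_mul_right, hws.tsum_eq, one_mul] at h1
      exact lt_irrefl _ h1
    have hHle : H ≤ g j / w j := by
      rw [le_div_iff₀ (hw j)]; linarith only [hj]
    have h8 : φ F ≤ φ (g j / w j) :=
      hφm (Set.mem_Ici.2 hF0) (Set.mem_Ici.2 (by linarith only [hF0, hF, hHle])) (hF.trans hHle)
    have h9 := h j (by linarith only [hF1, hF, hHle])
    have h10 : κ j * g j ≤ ∑' j, κ j * g j :=
      hκs.le_tsum j (fun i _ => mul_nonneg (hκ i) (hg i))
    linarith only [hφ0, h8, h9, h10]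

end Vale.Agent.P091
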