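import Vale.Agent.P091.H690.StageH
import Vale.Agent.P091.H690.Glide2

set_option linter.all false

namespace Vale.Agent.P091

open Finset MeasureTheory AddCircle

/-- weights -/
noncomputable def wgt (p : ℕ) : ℝ := (1 / 2) ^ (p.unpair.1 + p.unpair.2 + 2)

theorem wgt_pos (p : ℕ) : 0 < wgt p := by unfold wgt; positivity

theorem hasSum_wgt : HasSum wgt 1 := by
  have h1 : HasSum (fun j : ℕ => (1 / 2 : ℝ) ^ (j + 1)) 1 := by
    have h2 := (hasSum_geometric_of_lt_one (r := (1 / 2 : ℝ)) (by norm_num) (by norm_num)).mul_right (1 / 2)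
    have h3 : (1 - (1 / 2 : ℝ))⁻¹ * (1 / 2) = 1 := by norm_num
    rw [h3] at h2
    simpa only [pow_succ] using h2
  obtain ⟨g, hg⟩ : ∃ g : ℕ → ℝ, ∀ j, g j = (1 / 2 : ℝ) ^ (j + 1) := ⟨_, fun _ => rfl⟩
  have h1' : HasSum g 1 := by
    have : g = fun j : ℕ => (1 / 2 : ℝ) ^ (j + 1) := funext hg
    rw [this]; exact h1
  have hg0 : 0 ≤ g := fun j => by rw [hg]; positivity
  have hs : Summable fun x : ℕ × ℕ => g x.1 * g x.2 :=
    h1'.summable.mul_of_nonneg h1'.summable hg0 hg0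
  have h2 : HasSum (fun x : ℕ × ℕ => g x.1 * g x.2) (1 * 1) := h1'.mul h1' hs
  rw [one_mul, ← Nat.pairEquiv.symm.hasSum_iff] at h2
  have h3 : wgt = (fun x : ℕ × ℕ => g x.1 * g x.2) ∘ Nat.pairEquiv.symm := by
    funext p
    have h4 : Nat.pairEquiv.symm p = p.unpair := rfl
    rw [Function.comp_apply, h4]
    unfold wgt
    rw [hg, hg, ← pow_add]
    congr 1
    ring
  rw [h3]
  exact h2

theorem sum_shift {T : ℝ} (b : ℤ → ℂ) (C : ℤ) (n : ℕ) (x : AddCircle T) :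
    ∑ k ∈ Icc (C - n) (C + n), b (k - C) * fourier k x = fourier C x * trigSum b n x := by
  have h1 : Icc (C - n) (C + n) = (Icc (-(n : ℤ)) n).image (fun k => C + k) := by
    rw [Finset.image_add_left_Icc]
    rfl
  rw [h1, Finset.sum_image (fun a _ c _ h => add_left_cancel h)]
  unfold trigSum
  rw [Finset.mul_sum]
  refine Finset.sum_congr rfl fun k _ => ?_
  rw [fourier_add, add_sub_cancel_left]
  ring

variable {T : ℝ} [hT : Fact (0 < T)]

theorem growth_general (φ : ℝ → ℝ) (hφ0 : ∀ u, 0 ≤ u → 0 ≤ φ u)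
    (hφm : MonotoneOn φ (Set.Ici 0)) (ψ : ℕ → ℝ) (hψ0 : ∀ N, 0 < ψ N)
    (hψ : ∀ η : ℝ, 0 < η → ∃ N₀ : ℕ, ∀ m : ℕ, N₀ ≤ m → ψ m ≤ η * Real.sqrt (Real.log m))
    (hφψ : ∀ η : ℝ, 0 < η → ∃ N₀ : ℕ, ∀ m : ℕ, N₀ ≤ m → ∀ u : ℝ, 1 ≤ u → u ≤ m →
      φ u * ψ m ≤ η * (u * Real.sqrt (Real.log m))) :
    ∃ f : AddCircle T → ℂ, Integrable f haarAddCircle ∧
      Integrable (fun x => φ ‖f x‖) haarAddCircle ∧
      (∀ k : ℤ, k ≤ 0 → fourierCoeff f k = 0) ∧
      ∀ x, ¬ BddAbove (Set.range fun N : ℕ => ‖partialS f N x‖ / ψ N) := by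
  have hst := fun j M => stage_growth (T := T) φ ψ hψ0 hψ hφψ j M
  choose Q R DD BB KK h64 hMQ hKK hφq hdeg hzero hint hκint hbd hlarge using hst
  let M : ℕ → ℕ := fun j => Nat.rec 0 (fun j Mj => Q j Mj ^ (R j Mj + 2)) j
  have hMs : ∀ j, M (j + 1) = Q j (M j) ^ (R j (M j) + 2) := fun j => rfl
  obtain ⟨q, hq⟩ : ∃ q : ℕ → ℕ, ∀ j, q j = Q j (M j) := ⟨_, fun _ => rfl⟩
  obtain ⟨r, hr⟩ : ∃ r : ℕ → ℕ, ∀ j, r j = R j (M j) := ⟨_, fun _ => rfl⟩
  obtain ⟨dd, hdd⟩ : ∃ dd : ℕ → ℕ → ℕ, ∀ j, dd j = DD j (M j) := ⟨_, fun _ => rfl⟩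
  obtain ⟨bb, hbb⟩ : ∃ bb : ℕ → ℕ → ℤ → ℂ, ∀ j, bb j = BB j (M j) := ⟨_, fun _ => rfl⟩
  obtain ⟨kk, hkk⟩ : ∃ kk : ℕ → ℕ → ℝ, ∀ j, kk j = KK j (M j) := ⟨_, fun _ => rfl⟩
  have hMs' : ∀ j, M (j + 1) = q j ^ (r j + 2) := fun j => by rw [hMs, hq, hr]
  have h64' : ∀ j, 64 ≤ q j := fun j => by rw [hq]; exact h64 _ _
  have hMq' : ∀ j, M j < q j := fun j => by rw [hq]; exact hMQ _ _
  have hkk0 : ∀ j i, 0 ≤ kk j i := fun j i => by rw [hkk]; exact hKK _ _ _
  have hφq' : ∀ j i, ∀ u : ℝ, 1 ≤ u → u ≤ (q j : ℝ) ^ (i + 1) → 2 ^ (j + i + 2) * φ u ≤ kk j i * u :=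
    fun j i => by rw [hq, hkk]; exact hφq _ _ _
  have hdeg' : ∀ j i, i ≤ r j → 2 * dd j i + 1 ≤ q j ^ (i + 1) := fun j i hi => by
    rw [hq, hdd]; exact hdeg _ _ _ (by rw [← hr]; exact hi)
  have hzero' : ∀ j i, r j < i → bb j i = 0 := fun j i hi => by
    rw [hbb]; exact hzero _ _ _ (by rw [← hr]; exact hi)
  have hint' : ∀ j i, ∫ x, ‖(trigSum (bb j i) (dd j i) x : ℂ)‖ ∂(haarAddCircle (T := T)) ≤
      (1 / 2) ^ (j + i) := fun j i => by rw [hbb, hdd]; exact hint _ _ _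
  have hκint' : ∀ j i, kk j i *
      ∫ x, ‖(trigSum (bb j i) (dd j i) x : ℂ)‖ ∂(haarAddCircle (T := T)) ≤ (1 / 2) ^ (j + i) :=
    fun j i => by rw [hbb, hdd, hkk]; exact hκint _ _ _
  have hbd' : ∀ j i (x : AddCircle T), ‖trigSum (bb j i) (dd j i) x‖ ≤
      (1 / 2) ^ (j + i + 2) * (q j : ℝ) ^ (i + 1) := fun j i x => by
    rw [hbb, hdd, hq]; exact hbd _ _ _ _
  have hlarge' : ∀ j (x : AddCircle T), ∃ i, i ≤ r j ∧ ∃ n, n ≤ dd j i ∧
      ∀ N : ℕ, q j ^ (i + 1) ≤ N → N ≤ q j ^ (i + 2) →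
        2 ^ (j + 1) * ψ N ≤ ‖trigSum (bb j i) n x‖ := fun j x => by
    rw [hbb, hdd, hq, hr]; exact hlarge _ _ _
  clear_value M
  clear hbb hdd hr hq hkk hMs hlarge hbd hκint hint hzero hdeg hφq hKK hMQ h64
  -- monotonicity of the starting points
  have hMmono : Monotone M := by
    apply monotone_nat_of_le_succ
    intro j
    rw [hMs']
    have h1 := hMq' j
    have h2 : q j ≤ q j ^ (r j + 2) := Nat.le_self_pow (by omega) _
    omega
  have hpow : ∀ j i i' : ℕ, i ≤ i' → q j ^ i ≤ q j ^ i' := fun j i i' h =>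
    Nat.pow_le_pow_right (by have := h64' j; omega) h
  have hq1 : ∀ j i : ℕ, 1 ≤ q j ^ i := fun j i => Nat.one_le_pow _ _ (by have := h64' j; omega)
  have hstep : ∀ j i : ℕ, i ≤ r j → q j ^ (i + 1) + 1 + 2 * dd j i < q j ^ (i + 2) := by
    intro j i hi
    have h1 := hdeg' j i hi
    have h0 := hq1 j (i + 1)
    have h2 : 3 * q j ^ (i + 1) ≤ q j * q j ^ (i + 1) := Nat.mul_le_mul_right _ (by have := h64' j; omega)
    rw [← pow_succ'] at h2
    have h3 : q j ^ (i + 1 + 1) = q j ^ (i + 2) := rfl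
    omega
  -- the blocks
  obtain ⟨lo, hlo⟩ : ∃ lo : ℕ → ℤ, ∀ p, lo p = if p.unpair.2 ≤ r p.unpair.1 then
    ((q p.unpair.1 ^ (p.unpair.2 + 1) + 1 : ℕ) : ℤ) else 1 := ⟨_, fun _ => rfl⟩
  obtain ⟨hi, hhi⟩ : ∃ hi : ℕ → ℤ, ∀ p, hi p = if p.unpair.2 ≤ r p.unpair.1 then
    ((q p.unpair.1 ^ (p.unpair.2 + 1) + 1 + 2 * dd p.unpair.1 p.unpair.2 : ℕ) : ℤ) else 0 :=
    ⟨_, fun _ => rfl⟩
  obtain ⟨e, he⟩ : ∃ e : ℕ → ℤ → ℂ, ∀ p k, e p k = bb p.unpair.1 p.unpair.2
    (k - ((q p.unpair.1 ^ (p.unpair.2 + 1) + 1 + dd p.unpair.1 p.unpair.2 : ℕ) : ℤ)) :=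
    ⟨_, fun _ _ => rfl⟩
  have hlo1 : ∀ p, 1 ≤ lo p := by
    intro p
    rw [hlo]
    split_ifs
    · have := hq1 p.unpair.1 (p.unpair.2 + 1)
      omega
    · exact le_rfl
  have hdisj : ∀ p p' k, lo p ≤ k → k ≤ hi p → lo p' ≤ k → k ≤ hi p' → p = p' := by
    intro p p' k h1 h2 h3 h4
    have key : ∀ p k, lo p ≤ k → k ≤ hi p → p.unpair.2 ≤ r p.unpair.1 ∧
        ((q p.unpair.1 ^ (p.unpair.2 + 1) : ℕ) : ℤ) ≤ k ∧
        k < ((q p.unpair.1 ^ (p.unpair.2 + 2) : ℕ) : ℤ) := by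
      intro p k h1 h2
      rw [hlo] at h1
      rw [hhi] at h2
      by_cases hc : p.unpair.2 ≤ r p.unpair.1
      · rw [if_pos hc] at h1 h2
        have := hstep _ _ hc
        refine ⟨hc, by omega, ?_⟩
        omega
      · rw [if_neg hc] at h1 h2
        omega
    obtain ⟨a1, a2, a3⟩ := key p k h1 h2
    obtain ⟨b1, b2, b3⟩ := key p' k h3 h4
    have hcross : ∀ j i j' i' : ℕ, i ≤ r j → j < j' → q j ^ (i + 2) ≤ q j' ^ (i' + 1) := by
      intro j i j' i' hi hjj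
      have c1 : q j ^ (i + 2) ≤ M (j + 1) := by rw [hMs']; exact hpow _ _ _ (by omega)
      have c2 : M (j + 1) ≤ M j' := hMmono hjj
      have c3 := hMq' j'
      have c4 : q j' ≤ q j' ^ (i' + 1) := Nat.le_self_pow (by omega) _
      omega
    have hj : p.unpair.1 = p'.unpair.1 := by
      rcases lt_trichotomy p.unpair.1 p'.unpair.1 with h | h | h
      · have := hcross _ p.unpair.2 _ p'.unpair.2 a1 h
        omega
      · exact h
      · have := hcross _ p'.unpair.2 _ p.unpair.2 b1 h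
        omega
    have hi' : p.unpair.2 = p'.unpair.2 := by
      rcases lt_trichotomy p.unpair.2 p'.unpair.2 with h | h | h
      · have := hpow p'.unpair.1 (p.unpair.2 + 2) (p'.unpair.2 + 1) (by omega)
        rw [hj] at a3
        omega
      · exact h
      · have := hpow p'.unpair.1 (p'.unpair.2 + 2) (p.unpair.2 + 1) (by omega)
        rw [hj] at a2
        omega
    rw [← Nat.pair_unpair p, ← Nat.pair_unpair p', hj, hi']
  -- norms of the blocks
  have hnorm : ∀ p (x : AddCircle T), ‖gb lo hi e p x‖ =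
      ‖trigSum (bb p.unpair.1 p.unpair.2) (dd p.unpair.1 p.unpair.2) x‖ := by
    intro p x
    unfold gb
    by_cases hc : p.unpair.2 ≤ r p.unpair.1
    · have e1 : lo p = ((q p.unpair.1 ^ (p.unpair.2 + 1) + 1 + dd p.unpair.1 p.unpair.2 : ℕ) : ℤ) -
          (dd p.unpair.1 p.unpair.2 : ℕ) := by
        rw [hlo, if_pos hc]; push_cast; ring
      have e2 : hi p = ((q p.unpair.1 ^ (p.unpair.2 + 1) + 1 + dd p.unpair.1 p.unpair.2 : ℕ) : ℤ) +
          (dd p.unpair.1 p.unpair.2 : ℕ) := by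
        rw [hhi, if_pos hc]; push_cast; ring
      simp only [he]
      rw [e1, e2, sum_shift, norm_mul, norm_fourier, one_mul]
    · have e1 : bb p.unpair.1 p.unpair.2 = 0 := hzero' _ _ (by omega)
      simp only [he]
      rw [e1]
      simp [trigSum]
  have hw4 : ∀ p : ℕ, (1 / 2 : ℝ) ^ (p.unpair.1 + p.unpair.2) = 4 * wgt p := by
    intro p
    unfold wgt
    rw [pow_add _ _ 2]; ring
  have hws4 : Summable fun p => 4 * wgt p := hasSum_wgt.summable.mul_left 4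
  have hsum : Summable fun p => ∫ x, ‖(gb lo hi e p x : ℂ)‖ ∂(haarAddCircle (T := T)) := by
    refine Summable.of_nonneg_of_le (fun p => integral_nonneg fun x => norm_nonneg _) ?_ hws4
    intro p
    simp only [hnorm]
    rw [← hw4]
    exact hint' _ _
  obtain ⟨κ, hκ⟩ : ∃ κ : ℕ → ℝ, ∀ p, κ p = kk p.unpair.1 p.unpair.2 := ⟨_, fun _ => rfl⟩
  have hκ0 : ∀ p, 0 ≤ κ p := fun p => by rw [hκ]; exact hkk0 _ _
  obtain ⟨f, hf, hfneg, hfle, hpart⟩ := glide_gen (T := T) lo hi e hlo1 hdisj hsum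
  refine ⟨f, hf, ?_, hfneg, ?_⟩
  · -- integrability of `φ ‖f‖`
    have hae1 := (ae_summable_and_integrable_tsum (μ := haarAddCircle (T := T))
      (F := fun p (x : AddCircle T) => gb lo hi e p x)
      (fun p => integrable_of_continuous (continuous_gb lo hi e p)) hsum).1
    have hae2 := ae_summable_and_integrable_tsum (μ := haarAddCircle (T := T))
      (F := fun p (x : AddCircle T) => κ p * ‖gb lo hi e p x‖)
      (fun p => (integrable_of_continuous (continuous_gb lo hi e p).norm).const_mul _) (by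
        refine Summable.of_nonneg_of_le (fun p => integral_nonneg fun x => norm_nonneg _) ?_ hws4
        intro p
        simp only [norm_mul, norm_norm, Real.norm_of_nonneg (hκ0 p), integral_const_mul]
        simp only [hnorm]
        rw [← hw4, hκ]
        exact hκint' _ _)
    have hmono : Monotone fun u : ℝ => φ (max u 0) := by
      intro u v huv
      exact hφm (Set.mem_Ici.2 (le_max_right _ _)) (Set.mem_Ici.2 (le_max_right _ _))
        (max_le_max huv le_rfl)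
    have hmeas : AEStronglyMeasurable (fun x => φ ‖f x‖) (haarAddCircle (T := T)) := by
      have h1 : (fun x => φ ‖f x‖) = (fun u : ℝ => φ (max u 0)) ∘ fun x => ‖f x‖ := by
        ext x; simp only [Function.comp_apply, norm_nonneg, sup_of_le_left]
      rw [h1]
      exact (hmono.measurable.comp_aemeasurable hf.1.norm.aemeasurable).aestronglyMeasurable
    refine Integrable.mono' (g := fun x => φ 1 + ∑' p, κ p * ‖gb lo hi e p x‖)
      ((integrable_const _).add hae2.2) hmeas ?_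
    filter_upwards [hae1, hae2.1] with x hx1 hx2
    rw [Real.norm_of_nonneg (hφ0 _ (norm_nonneg _))]
    have hx2' : Summable fun p => κ p * ‖gb lo hi e p x‖ := by
      simpa only [norm_mul, norm_norm, Real.norm_of_nonneg (hκ0 _)] using hx2
    refine phi_bound_w φ hφm (fun p => ‖gb lo hi e p x‖) κ wgt (fun p => norm_nonneg _) hκ0
      hx1 hx2' wgt_pos hasSum_wgt (hφ0 1 zero_le_one) ?_ _ (norm_nonneg _) (hfle x hx1)
    intro p hp
    have hule : ‖gb lo hi e p x‖ / wgt p ≤ (q p.unpair.1 : ℝ) ^ (p.unpair.2 + 1) := by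
      rw [div_le_iff₀ (wgt_pos p), mul_comm, hnorm]
      exact hbd' _ _ _
    have h1 := hφq' p.unpair.1 p.unpair.2 _ hp hule
    have h2 : (2 : ℝ) ^ (p.unpair.1 + p.unpair.2 + 2) * wgt p = 1 := by
      unfold wgt
      rw [← mul_pow]; norm_num
    have h3 := mul_le_mul_of_nonneg_left h1 (wgt_pos p).le
    have hw0 := (wgt_pos p).ne'
    have h4 : wgt p * (2 ^ (p.unpair.1 + p.unpair.2 + 2) * φ (‖gb lo hi e p x‖ / wgt p)) =
        φ (‖gb lo hi e p x‖ / wgt p) := by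
      linear_combination (φ (‖gb lo hi e p x‖ / wgt p)) * h2
    have h5 : wgt p * (kk p.unpair.1 p.unpair.2 * (‖gb lo hi e p x‖ / wgt p)) =
        κ p * ‖gb lo hi e p x‖ := by
      rw [hκ]; field_simp
    rw [h4, h5] at h3
    exact h3
  · intro x hbdd
    obtain ⟨B, hB⟩ := hbdd
    have hB' : ∀ N : ℕ, ‖partialS f N x‖ ≤ B * ψ N := fun N => by
      have h1 : ‖partialS f N x‖ / ψ N ≤ B := hB ⟨N, rfl⟩
      rwa [div_le_iff₀ (hψ0 N)] at h1
    have hB0 : 0 ≤ B := by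
      have h1 := hB' 0
      have h2 := norm_nonneg (partialS f 0 x)
      by_contra hcon
      push Not at hcon
      have := mul_neg_of_neg_of_pos hcon (hψ0 0)
      linarith
    have hall : ∀ j : ℕ, (2 : ℝ) ^ j ≤ B := by
      intro j
      obtain ⟨i, hir, n, hn, hlow⟩ := hlarge' j x
      have hun : (Nat.pair j i).unpair = (j, i) := Nat.unpair_pair j i
      obtain ⟨C, hC⟩ : ∃ C : ℕ, C = q j ^ (i + 1) + 1 + dd j i := ⟨_, rfl⟩
      have hq1' := hq1 j (i + 1)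
      obtain ⟨N₁, hN₁⟩ : ∃ N₁ : ℕ, N₁ + 1 + n = C := ⟨C - n - 1, by omega⟩
      have hst' := hstep j i hir
      have h1 := hpart (Nat.pair j i) N₁ (C + n) (by
        rw [hlo, hun, if_pos hir]; simp only []; omega) (by omega) (by
        rw [hhi, hun, if_pos hir]; simp only []; omega) x
      simp only [he, hun] at h1
      rw [← hC] at h1
      have e1 : ((N₁ : ℤ) + 1) = (C : ℤ) - (n : ℕ) := by omega
      have e2 : ((C + n : ℕ) : ℤ) = (C : ℤ) + (n : ℕ) := by push_cast; ring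
      rw [e1, e2, sum_shift] at h1
      have h2 : ‖trigSum (bb j i) n x‖ ≤ B * ψ (C + n) + B * ψ N₁ := by
        have h3 : ‖trigSum (bb j i) n x‖ = ‖partialS f (C + n) x - partialS f N₁ x‖ := by
          rw [h1, norm_mul, norm_fourier, one_mul]
        rw [h3]
        refine (norm_sub_le _ _).trans ?_
        have := hB' (C + n)
        have := hB' N₁
        linarith
      have h3 := hlow (C + n) (by omega) (by omega)
      have h4 := hlow N₁ (by omega) (by omega)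
      have h7 : (2 : ℝ) ^ j * (ψ (C + n) + ψ N₁) ≤ B * (ψ (C + n) + ψ N₁) := by
        rw [pow_succ] at h3 h4
        linarith
      exact le_of_mul_le_mul_right h7 (by
        have := hψ0 (C + n); have := hψ0 N₁; positivity)
    obtain ⟨j, hj⟩ := pow_unbounded_of_one_lt B (one_lt_two)
    exact absurd (hall j) (not_le.2 hj)

end Vale.Agent.P091
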