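import Vale.Agent.P091.H690.Prod

set_option linter.all false

namespace Vale.Agent.P091

open Finset MeasureTheory AddCircle

variable {T : ℝ}

theorem norm_fourier (k : ℤ) (z : AddCircle T) : ‖(fourier k z : ℂ)‖ = 1 := by
  rw [fourier_apply, Circle.norm_coe]

theorem fourier_natCast (k : ℕ) (z : AddCircle T) : (fourier (k : ℤ) z : ℂ) = fourier 1 z ^ k := by
  induction k with
  | zero => simp
  | succ k ih =>
    push_cast
    rw [fourier_add, ih, pow_succ]

theorem norm_fourier_nat_sub_one (k : ℕ) (z : AddCircle T) :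
    ‖(fourier (k : ℤ) z : ℂ) - 1‖ ≤ k * ‖(fourier 1 z : ℂ) - 1‖ := by
  induction k with
  | zero => simp
  | succ k ih =>
    push_cast
    rw [fourier_add]
    have h1 : (fourier (k : ℤ) z : ℂ) * fourier 1 z - 1 =
        fourier (k : ℤ) z * (fourier 1 z - 1) + (fourier (k : ℤ) z - 1) := by ring
    rw [h1]
    refine (norm_add_le _ _).trans ?_
    rw [norm_mul, norm_fourier, one_mul]
    linarith only [ih]

theorem norm_fourier_sub_one (k : ℤ) (z : AddCircle T) :
    ‖(fourier k z : ℂ) - 1‖ ≤ |(k : ℝ)| * ‖(fourier 1 z : ℂ) - 1‖ := by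
  obtain ⟨n, rfl | rfl⟩ := k.eq_nat_or_neg
  · have := norm_fourier_nat_sub_one n z
    simpa using this
  · have h1 : (fourier (-(n : ℤ)) z : ℂ) - 1 =
        -(fourier (-(n : ℤ)) z * (fourier (n : ℤ) z - 1)) := by
      have h2 : (fourier (-(n : ℤ)) z : ℂ) * fourier (n : ℤ) z = 1 := by
        rw [← fourier_add]; simp
      linear_combination h2
    rw [h1, norm_neg, norm_mul, norm_fourier, one_mul]
    have := norm_fourier_nat_sub_one n z
    simpa using this

theorem norm_trigSum_sub_le (a : ℤ → ℂ) (ha : ∀ k, ‖a k‖ ≤ 1) {n d : ℕ} (hn : n ≤ d)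
    (x y : AddCircle T) :
    ‖trigSum a n x - trigSum a n y‖ ≤ (2 * d + 1) * d * ‖(fourier 1 (x - y) : ℂ) - 1‖ := by
  unfold trigSum
  rw [← sum_sub_distrib]
  refine (norm_sum_le _ _).trans ?_
  have h1 : ∀ k ∈ Icc (-(n : ℤ)) n, ‖a k * (fourier k x : ℂ) - a k * fourier k y‖ ≤
      d * ‖(fourier 1 (x - y) : ℂ) - 1‖ := by
    intro k hk
    rw [mem_Icc] at hk
    have h2 : a k * (fourier k x : ℂ) - a k * fourier k y =
        a k * (fourier k y * (fourier k (x - y) - 1)) := by
      have h3 : (fourier k x : ℂ) = fourier k y * fourier k (x - y) := by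
        rw [fourier_apply, fourier_apply, fourier_apply, ← Circle.coe_mul, ← AddCircle.toCircle_add,
          ← smul_add, add_sub_cancel]
      rw [h3]; ring
    rw [h2, norm_mul, norm_mul, norm_fourier, one_mul]
    have h4 : |(k : ℝ)| ≤ d := by
      rw [abs_le]
      constructor
      · have : -(d : ℤ) ≤ k := by omega
        exact_mod_cast this
      · have : k ≤ (d : ℤ) := by omega
        exact_mod_cast this
    calc ‖a k‖ * ‖(fourier k (x - y) : ℂ) - 1‖ ≤ 1 * ‖(fourier k (x - y) : ℂ) - 1‖ := by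
          gcongr; exact ha k
      _ ≤ |(k : ℝ)| * ‖(fourier 1 (x - y) : ℂ) - 1‖ := by
          rw [one_mul]; exact norm_fourier_sub_one k _
      _ ≤ _ := by gcongr
  refine (sum_le_sum h1).trans ?_
  rw [sum_const, nsmul_eq_mul, Int.card_Icc]
  have h5 : (((n : ℤ) + 1 - -(n : ℤ)).toNat : ℝ) ≤ 2 * d + 1 := by
    have : ((n : ℤ) + 1 - -(n : ℤ)).toNat ≤ 2 * d + 1 := by omega
    exact_mod_cast this
  rw [mul_assoc]
  gcongr

/-- the Fejer kernel -/
noncomputable def fejG (D : ℕ) (z : AddCircle T) : ℝ :=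
  ‖∑ k ∈ range D, (fourier (k : ℤ) z : ℂ)‖ ^ 2 / D

theorem fejG_nonneg (D : ℕ) (z : AddCircle T) : 0 ≤ fejG D z := by unfold fejG; positivity

theorem continuous_fejG (D : ℕ) : Continuous (fejG D : AddCircle T → ℝ) := by
  unfold fejG
  fun_prop

theorem fejG_le {D : ℕ} (hD : 0 < D) (z : AddCircle T) :
    fejG D z * ‖(fourier 1 z : ℂ) - 1‖ ^ 2 ≤ 4 / D := by
  have h1 : (∑ k ∈ range D, (fourier (k : ℤ) z : ℂ)) * (fourier 1 z - 1) = fourier 1 z ^ D - 1 := by
    simp only [fourier_natCast]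
    exact geom_sum_mul _ _
  have h2 : ‖∑ k ∈ range D, (fourier (k : ℤ) z : ℂ)‖ * ‖(fourier 1 z : ℂ) - 1‖ ≤ 2 := by
    rw [← norm_mul, h1]
    refine (norm_sub_le _ _).trans ?_
    rw [norm_pow, norm_fourier, one_pow, norm_one]
    norm_num
  have hD' : (0 : ℝ) < D := by exact_mod_cast hD
  unfold fejG
  rw [div_mul_eq_mul_div, ← mul_pow]
  gcongr
  calc (‖∑ k ∈ range D, (fourier (k : ℤ) z : ℂ)‖ * ‖(fourier 1 z : ℂ) - 1‖) ^ 2 ≤ 2 ^ 2 := by
        gcongr
    _ = 4 := by norm_num

theorem fejG_eq (D : ℕ) (z : AddCircle T) :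
    ((fejG D z : ℝ) : ℂ) = ∑ p ∈ range D ×ˢ range D, (D : ℂ)⁻¹ * fourier ((p.1 : ℤ) - p.2) z := by
  unfold fejG
  push_cast
  rw [← Complex.mul_conj', map_sum, sum_mul_sum, ← sum_product', div_eq_mul_inv, mul_comm, mul_sum]
  refine sum_congr rfl fun p _ => ?_
  rw [sub_eq_add_neg, fourier_add, fourier_neg]

theorem fejG_sub_comm (D : ℕ) (x y : AddCircle T) : fejG D (x - y) = fejG D (y - x) := by
  unfold fejG
  have h1 : ∀ k : ℕ, (fourier (k : ℤ) (x - y) : ℂ) =
      (starRingEnd ℂ) (fourier (k : ℤ) (y - x)) := by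
    intro k
    rw [← fourier_neg, fourier_apply, fourier_apply, neg_smul, ← smul_neg, neg_sub]
  simp only [h1]
  rw [← map_sum, RCLike.norm_conj]

variable [hT : Fact (0 < T)]

theorem integral_fourier (k : ℤ) :
    ∫ x, (fourier k x : ℂ) ∂(haarAddCircle (T := T)) = if k = 0 then 1 else 0 := by
  have := congrFun (fourierCoeff_fourier (T := T) k) 0
  rw [Pi.single_apply] at this
  unfold fourierCoeff at this
  simp only [neg_zero, fourier_zero, one_smul] at this
  rw [this]
  simp only [eq_comm]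

theorem integral_fejG {D : ℕ} (hD : 0 < D) :
    ∫ x, fejG D x ∂(haarAddCircle (T := T)) = 1 := by
  have h1 : ((∫ x, fejG D x ∂(haarAddCircle (T := T)) : ℝ) : ℂ) = 1 := by
    rw [← integral_complex_ofReal]
    simp only [fejG_eq]
    rw [integral_finset_sum _ (fun p _ => integrable_of_continuous (by fun_prop))]
    simp only [integral_const_mul, integral_fourier]
    rw [sum_product]
    have h2 : ∀ k ∈ range D, ∑ l ∈ range D, (D : ℂ)⁻¹ * (if (k : ℤ) - l = 0 then 1 else 0) =
        (D : ℂ)⁻¹ := by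
      intro k hk
      rw [sum_eq_single k]
      · simp
      · intro l _ hlk
        rw [if_neg (by omega), mul_zero]
      · intro h; exact absurd hk h
    rw [sum_congr rfl h2, sum_const, card_range, nsmul_eq_mul]
    exact mul_inv_cancel₀ (by exact_mod_cast hD.ne')
  exact_mod_cast h1

theorem exists_kappa (a : ℤ → ℂ) (d D : ℕ) (hD : D = 2 * (2 * d + 1) ^ 4) (lam : ℝ) (hlam : 1 ≤ lam)
    (ha : ∀ k, ‖a k‖ ≤ 1) (ε : ℝ) (hε : 0 ≤ ε)
    (hμ : haarAddCircle {x : AddCircle T | ∀ n : ℕ, n ≤ d → ‖trigSum a n x‖ ≤ 2 * lam} ≤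
      ENNReal.ofReal ε) :
    ∃ b : ℤ → ℂ, (∀ x : AddCircle T, (trigSum b D x).im = 0 ∧ 0 ≤ (trigSum b D x).re ∧
        (trigSum b D x).re ≤ 2) ∧
      (∀ x : AddCircle T, (∀ n : ℕ, n ≤ d → ‖trigSum a n x‖ ≤ lam) → 1 ≤ (trigSum b D x).re) ∧
      ∃ m : ℝ, b 0 = m ∧ 0 ≤ m ∧ m ≤ 2 * ε := by
  set K : Set (AddCircle T) := {x | ∀ n : ℕ, n ≤ d → ‖trigSum a n x‖ ≤ 2 * lam} with hK
  have hKc : IsClosed K := by
    have : K = ⋂ (n : ℕ) (_ : n ≤ d), {x : AddCircle T | ‖trigSum a n x‖ ≤ 2 * lam} := by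
      ext x; simp only [hK, Set.mem_ofPred_eq, Set.mem_iInter]
    rw [this]
    refine isClosed_iInter fun n => isClosed_iInter fun _ => ?_
    exact isClosed_le (continuous_trigSum a n).norm continuous_const
  have hKm : MeasurableSet K := hKc.measurableSet
  have hD0 : 0 < D := by rw [hD]; positivity
  have hD0c : (D : ℂ) ≠ 0 := by exact_mod_cast hD0.ne'
  have hD0r : (0 : ℝ) < D := by exact_mod_cast hD0
  set I : ℤ → ℂ := fun m => ∫ y in K, (fourier (-m) y : ℂ) ∂(haarAddCircle (T := T)) with hI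
  set b : ℤ → ℂ := fun m => ∑ p ∈ range D ×ˢ range D,
    if (p.1 : ℤ) - p.2 = m then 2 * (D : ℂ)⁻¹ * I ((p.1 : ℤ) - p.2) else 0 with hb
  have hint : ∀ x : AddCircle T, Integrable (fun y => fejG D (x - y)) (haarAddCircle (T := T)) :=
    fun x => integrable_of_continuous ((continuous_fejG D).comp (by fun_prop))
  have hval : ∀ x : AddCircle T, trigSum b D x =
      ((2 * ∫ y in K, fejG D (x - y) ∂(haarAddCircle (T := T)) : ℝ) : ℂ) := by
    intro x
    unfold trigSum
    simp only [hb]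
    rw [sum_collect]
    push_cast
    rw [← integral_complex_ofReal]
    simp only [fejG_eq]
    rw [integral_finset_sum _ (fun p _ => (integrable_of_continuous (by fun_prop)).integrableOn),
      mul_sum]
    refine sum_congr rfl fun p hp => ?_
    rw [mem_product, mem_range, mem_range] at hp
    rw [if_pos (by rw [mem_Icc]; omega), integral_const_mul]
    have h1 : ∀ y : AddCircle T, (fourier ((p.1 : ℤ) - p.2) (x - y) : ℂ) =
        fourier ((p.1 : ℤ) - p.2) x * fourier (-((p.1 : ℤ) - p.2)) y := by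
      intro y
      rw [fourier_apply, fourier_apply, fourier_apply, ← Circle.coe_mul, ← AddCircle.toCircle_add,
        neg_smul, smul_sub, sub_eq_add_neg]
    simp only [h1]
    rw [integral_const_mul]
    simp only [hI]
    ring
  have htot : ∀ x : AddCircle T, ∫ y, fejG D (x - y) ∂(haarAddCircle (T := T)) = 1 := by
    intro x
    simp only [fejG_sub_comm D x]
    rw [integral_sub_right_eq_self (fun y => fejG D y) x, integral_fejG hD0]
  refine ⟨b, ?_, ?_, ?_⟩
  · intro x
    rw [hval, Complex.ofReal_im, Complex.ofReal_re]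
    refine ⟨rfl, ?_, ?_⟩
    · have : 0 ≤ ∫ y in K, fejG D (x - y) ∂(haarAddCircle (T := T)) :=
        integral_nonneg fun y => fejG_nonneg D _
      linarith
    · have : ∫ y in K, fejG D (x - y) ∂(haarAddCircle (T := T)) ≤
          ∫ y, fejG D (x - y) ∂(haarAddCircle (T := T)) :=
        setIntegral_le_integral (hint x) (Filter.Eventually.of_forall fun y => fejG_nonneg D _)
      rw [htot] at this
      linarith
  · intro x hx
    rw [hval, Complex.ofReal_re]
    have h1 := integral_add_compl hKm (hint x)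
    rw [htot] at h1
    have h2 : ∫ y in Kᶜ, fejG D (x - y) ∂(haarAddCircle (T := T)) ≤
        ∫ y in Kᶜ, (1 / 2 : ℝ) ∂(haarAddCircle (T := T)) := by
      refine setIntegral_mono_on (hint x).integrableOn (integrable_const _).integrableOn
        hKm.compl ?_
      intro y hy
      simp only [hK, Set.mem_compl_iff, Set.mem_ofPred_eq] at hy
      push Not at hy
      obtain ⟨n, hn, hy⟩ := hy
      have h3 := hx n hn
      have h4 := norm_trigSum_sub_le a ha hn x y
      set s : ℝ := ‖(fourier 1 (x - y) : ℂ) - 1‖ with hs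
      have h5 : lam < (2 * d + 1) * d * s := by
        have h6 : ‖trigSum a n y‖ ≤ ‖trigSum a n x‖ + ‖trigSum a n x - trigSum a n y‖ := by
          have := norm_sub_le (trigSum a n x) (trigSum a n x - trigSum a n y)
          rwa [sub_sub_cancel] at this
        linarith
      have h7 := fejG_le hD0 (x - y)
      rw [← hs, le_div_iff₀ hD0r] at h7
      have hs0 : 0 ≤ s := norm_nonneg _
      have h8 : 1 < ((2 * d + 1) * d * s) ^ 2 := by nlinarith
      have h9 : (8 : ℝ) ≤ s ^ 2 * D := by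
        have h10 : (D : ℝ) = 2 * (2 * d + 1) ^ 4 := by rw [hD]; push_cast; ring
        rw [h10]
        have h11 : (4 * (d : ℝ) ^ 2) ≤ (2 * d + 1) ^ 2 := by nlinarith [(Nat.cast_nonneg d : (0 : ℝ) ≤ d)]
        have h12 : 8 * (((2 * d + 1) * d * s) ^ 2 : ℝ) = 2 * (2 * d + 1) ^ 2 * s ^ 2 * (4 * (d : ℝ) ^ 2) := by ring
        have h13 : 2 * (2 * (d : ℝ) + 1) ^ 2 * s ^ 2 * (4 * (d : ℝ) ^ 2) ≤
            2 * (2 * (d : ℝ) + 1) ^ 2 * s ^ 2 * (2 * d + 1) ^ 2 := by gcongr
        have h14 : 2 * (2 * (d : ℝ) + 1) ^ 2 * s ^ 2 * (2 * d + 1) ^ 2 = s ^ 2 * (2 * (2 * d + 1) ^ 4) := by ring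
        linarith
      have h15 := fejG_nonneg D (x - y)
      nlinarith
    have h3 : ∫ y in Kᶜ, (1 / 2 : ℝ) ∂(haarAddCircle (T := T)) ≤ 1 / 2 := by
      rw [setIntegral_const, smul_eq_mul]
      have : (haarAddCircle (T := T)).real Kᶜ ≤ 1 := measureReal_le_one
      linarith
    linarith
  · refine ⟨2 * (haarAddCircle (T := T)).real K, ?_, by positivity, ?_⟩
    · simp only [hb]
      rw [sum_product]
      have h2 : ∀ k ∈ range D, ∑ l ∈ range D, (if (k : ℤ) - l = 0 then 2 * (D : ℂ)⁻¹ * I ((k : ℤ) - l) else 0) =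
          2 * (D : ℂ)⁻¹ * I 0 := by
        intro k hk
        rw [sum_eq_single k]
        · simp
        · intro l _ hlk
          rw [if_neg (by omega)]
        · intro h; exact absurd hk h
      rw [sum_congr rfl h2, sum_const, card_range, nsmul_eq_mul]
      have h3 : I 0 = (((haarAddCircle (T := T)).real K : ℝ) : ℂ) := by
        simp only [hI, neg_zero, fourier_zero]
        rw [setIntegral_const]
        simp
      rw [h3]
      push_cast
      field_simp
    · have : (haarAddCircle (T := T)).real K ≤ ε := by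
        unfold Measure.real
        exact ENNReal.toReal_le_of_le_ofReal hε hμ
      linarith

end Vale.Agent.P091
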