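import Vale.Agent.P091.Bdl.B1

set_option linter.all false

namespace Vale.Agent.P091

open Finset Real MeasureTheory AddCircle

/-- Main lemma with control of `L` from both sides and of the degree. -/
theorem main_lemma_three {T : ℝ} [hT : Fact (0 < T)] :
    ∀ ε : ℝ, 0 < ε → ∃ c : ℝ, 0 < c ∧ ∃ Λ : ℝ, 0 < Λ ∧ ∀ L0 : ℝ, Λ ≤ L0 →
      ∃ L : ℝ, L0 ≤ L ∧ L ≤ 2 * L0 ∧ ∃ (d : ℕ) (a : ℤ → ℂ),
      (∀ k : ℤ, (d : ℤ) < |k| → a k = 0) ∧ a 0 = 1 ∧
      (∀ x : AddCircle T, (trigSum a d x).im = 0 ∧ 0 ≤ (trigSum a d x).re ∧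
        (trigSum a d x).re ≤ Real.exp (L ^ 2)) ∧
      (d : ℝ) ≤ Real.exp (L ^ 2) ∧
      haarAddCircle {x : AddCircle T | ∀ n : ℕ, n ≤ d → ‖trigSum a n x‖ ≤ c * L} ≤
        ENNReal.ofReal ε := by
  intro ε hε
  have hT0 : 0 < T := hT.out
  set ρ : ℝ := min (ε / 7) (1 / 4) with hρdef
  have hρ : 0 < ρ := lt_min (by positivity) (by norm_num)
  have hρ4 : ρ ≤ 1 / 4 := min_le_right _ _
  have hρε : 7 * ρ ≤ ε := by
    have := min_le_left (ε / 7) (1 / 4 : ℝ)
    linarith only [this]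
  set A : ℕ := 2 * (⌈600 / ρ ^ 3⌉₊ + 2) with hAdef
  have hA : Even A := ⟨⌈600 / ρ ^ 3⌉₊ + 2, by rw [hAdef]; ring⟩
  have hA4 : 4 ≤ A := by omega
  have hAbig : 600 / ρ ^ 3 ≤ A := by
    have := Nat.le_ceil (600 / ρ ^ 3)
    have h2 : (⌈600 / ρ ^ 3⌉₊ : ℝ) ≤ A := by exact_mod_cast (by omega : ⌈600 / ρ ^ 3⌉₊ ≤ A)
    linarith only [this, h2]
  have hA0 : (0 : ℝ) < A := by exact_mod_cast (by omega : 0 < A)
  have hlogA : 0 < Real.log A := Real.log_pos (by exact_mod_cast (by omega : 1 < A))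
  clear_value A
  clear_value ρ
  set C : ℝ := √(24 * A * Real.log A) with hC
  have hC0 : 0 < C := Real.sqrt_pos.mpr (by (clear * - hA4 hlogA; positivity))
  have hC2 : C ^ 2 = 24 * A * Real.log A := Real.sq_sqrt (by positivity)
  clear_value C
  refine ⟨ρ / (40 * C), by positivity,
    C * (max (max (1 / ρ) ((140 + 240 / ρ) / ρ)) 1), by positivity, fun L0 hL0 => ?_⟩
  -- choose m
  set Q : ℝ := max (max (1 / ρ) ((140 + 240 / ρ) / ρ)) 1 with hQ
  have hQ1 : 1 ≤ Q := le_max_right _ _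
  have hL0C : Q ≤ L0 / C := by rw [le_div_iff₀ hC0]; linarith only [hL0]
  have hL0pos : 0 < L0 := lt_of_lt_of_le (by positivity) hL0
  set m : ℕ := ⌈L0 / C⌉₊ with hmdef
  have hmL : L0 / C ≤ m := Nat.le_ceil _
  have hmU : (m : ℝ) < L0 / C + 1 := Nat.ceil_lt_add_one (by (clear * - hL0pos hC0; positivity))
  have hm : Q ≤ m := hL0C.trans hmL
  have hm2 : 1 / ρ ≤ m := (le_max_left _ _).trans ((le_max_left _ _).trans hm)
  have hm3 : (140 + 240 / ρ) / ρ ≤ m := (le_max_right _ _).trans ((le_max_left _ _).trans hm)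
  have hm1r : (1 : ℝ) ≤ m := hQ1.trans hm
  have hm1 : 1 ≤ m := by exact_mod_cast hm1r
  have hK0 := bigK_pos A m
  have hn0 : 0 < 2 ^ m := by positivity
  have hKsize : (bigK A m : ℝ) ≤ Real.exp ((C * m) ^ 2) := by
    rw [mul_pow, hC2]
    exact bigK_size hA4 hm1
  refine ⟨C * m, ?_, ?_, bigK A m, coefAt A m, fun k hk => fcoef_large _ hk, fcoef_zero hn0 _, ?_, hKsize, ?_⟩
  · rw [div_le_iff₀ hC0] at hmL
    linarith only [hmL]
  · have h1 : C * m ≤ L0 + C := by
      have : C * m ≤ C * (L0 / C + 1) := by (clear * - hmU hC0; gcongr)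
      have e : C * (L0 / C + 1) = L0 + C := by (clear * - hC0 hL0pos; field_simp)
      linarith only [this, e]
    have h2 : C ≤ L0 := by
      calc C = C * 1 := by ring
        _ ≤ C * Q := by (clear * - hQ1 hC0; gcongr)
        _ ≤ L0 := hL0
    linarith only [h1, h2]
  · intro x
    obtain ⟨t, rfl⟩ := QuotientAddGroup.mk_surjective x
    have h2 : trigSum (coefAt A m) (bigK A m) ((t : ℝ) : AddCircle T) = _ :=
      trigSum_fcoef (T := T) (K := bigK A m) (n := 2 ^ m) (N := bigK A m) hn0 le_rfl _ t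
    have h3 : (QuotientAddGroup.mk t : AddCircle T) = ((t : ℝ) : AddCircle T) := rfl
    rw [h3, h2, Complex.ofReal_im, Complex.ofReal_re]
    have hn1 : (0 : ℝ) < ((2 ^ m : ℕ) : ℝ) := by positivity
    refine ⟨rfl, ?_, ?_⟩
    · apply div_nonneg _ hn1.le
      exact sum_nonneg fun Y _ => fk_full_nonneg _ hK0 _
    · refine le_trans ?_ hKsize
      rw [div_le_iff₀ hn1]
      calc _ ≤ ∑ Y ∈ range (2 ^ m), (bigK A m : ℝ) :=
            sum_le_sum fun Y _ => fk_full_le _ hK0 _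
        _ = bigK A m * ((2 ^ m : ℕ) : ℝ) := by rw [sum_const, card_range, nsmul_eq_mul]; ring
  · set S : Set (AddCircle T) := {x | ∀ n : ℕ, n ≤ bigK A m →
      ‖trigSum (coefAt A m) n x‖ ≤ ρ / (40 * C) * (C * m)} with hS
    have hcL : ρ / (40 * C) * (C * m) = ρ * m / 40 := by (clear * - hC0 hm1 hρ; field_simp)
    have hSclosed : IsClosed S := by
      have : S = ⋂ n : ℕ, ⋂ _ : n ≤ bigK A m, {x | ‖trigSum (coefAt A m) n x‖ ≤ ρ / (40 * C) * (C * m)} := by
        ext x; simp only [hS, Set.mem_ofPred_eq, Set.mem_iInter]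
      rw [this]
      exact isClosed_iInter fun n => isClosed_iInter fun _ =>
        isClosed_le (continuous_trigSum _ _).norm continuous_const
    have hincl : (QuotientAddGroup.mk ⁻¹' S : Set ℝ) ∩ Set.Ioc 0 T ⊆
        (fun t => t * T⁻¹) ⁻¹' cover (2 ^ m) ρ (badset A m ρ) := by
      intro t ht
      by_contra hcon
      obtain ⟨htS, ht0, ht1⟩ := ht
      obtain ⟨N, hN, hlow⟩ := big_at (T := T) hA hA4 hm1 hρ hρ4 hm2 hm3 ht0 ht1 hcon
      have hts : ‖trigSum (coefAt A m) N ((t : ℝ) : AddCircle T)‖ ≤ ρ / (40 * C) * (C * m) := htS N hN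
      rw [hcL] at hts
      have hpos : 0 < ρ * m := by (clear * - hρ hL0pos hC0; positivity)
      linarith only [hlow, hts, hpos]
    have hvol : volume S ≤ ENNReal.ofReal T * ENNReal.ofReal ε := by
      rw [← (AddCircle.measurePreserving_mk T 0).measure_preimage hSclosed.measurableSet.nullMeasurableSet,
        Measure.restrict_apply' measurableSet_Ioc, zero_add]
      calc volume ((QuotientAddGroup.mk ⁻¹' S : Set ℝ) ∩ Set.Ioc 0 T)
          ≤ volume ((fun t => t * T⁻¹) ⁻¹' cover (2 ^ m) ρ (badset A m ρ)) := measure_mono hincl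
        _ = ENNReal.ofReal |(T⁻¹)⁻¹| * volume (cover (2 ^ m) ρ (badset A m ρ)) :=
            Real.volume_preimage_mul_right (by positivity) _
        _ ≤ ENNReal.ofReal T * ENNReal.ofReal ε := by
            rw [inv_inv, abs_of_pos hT0]
            gcongr
            refine (volume_cover_le hn0 hρ (badset_card hA4 hm1 hρ hAbig)).trans ?_
            exact ENNReal.ofReal_le_ofReal hρε
    rw [AddCircle.volume_eq_smul_haarAddCircle, Measure.smul_apply, smul_eq_mul] at hvol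
    have hTne : ENNReal.ofReal T ≠ 0 := by simpa only [ne_eq, ENNReal.ofReal_eq_zero, not_le] using hT0
    exact (ENNReal.mul_le_mul_iff_right hTne ENNReal.ofReal_ne_top).mp hvol

end Vale.Agent.P091
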