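import Vale.Agent.P091.H690.MainLemma3

set_option linter.all false

namespace Vale.Agent.P091

open Finset MeasureTheory AddCircle

variable {T : ℝ}

theorem sum_collect {ι : Type*} (s : Finset ι) (c : ι → ℂ) (n : ι → ℤ) (I : Finset ℤ)
    (x : AddCircle T) :
    ∑ k ∈ I, (∑ i ∈ s, if n i = k then c i else 0) * fourier k x =
      ∑ i ∈ s, if n i ∈ I then c i * fourier (n i) x else 0 := by
  have h1 : ∀ k ∈ I, (∑ i ∈ s, if n i = k then c i else 0) * (fourier k x : ℂ) =
      ∑ i ∈ s, if n i = k then c i * fourier k x else 0 := by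
    intro k _
    rw [sum_mul]
    exact sum_congr rfl fun i _ => by split_ifs <;> simp
  rw [sum_congr rfl h1, sum_comm]
  refine sum_congr rfl fun i _ => ?_
  rw [sum_ite_eq]

/-- coefficients of the product `x ↦ (trigSum a d (Q • x)) * (trigSum c E x)` -/
noncomputable def mulC (a : ℤ → ℂ) (d : ℕ) (c : ℤ → ℂ) (E Q : ℕ) (l : ℤ) : ℂ :=
  ∑ p ∈ Icc (-(d : ℤ)) d ×ˢ Icc (-(E : ℤ)) E, if p.1 * Q + p.2 = l then a p.1 * c p.2 else 0

theorem trigSum_mulC (a : ℤ → ℂ) (d : ℕ) (c : ℤ → ℂ) (E Q n : ℕ) (hQ : 2 * E < Q) (hn : n ≤ d)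
    (x : AddCircle T) :
    trigSum (mulC a d c E Q) (n * Q + E) x = trigSum a n (Q • x) * trigSum c E x := by
  unfold trigSum mulC
  rw [sum_collect]
  have hsub : Icc (-(n : ℤ)) n ×ˢ Icc (-(E : ℤ)) E ⊆ Icc (-(d : ℤ)) d ×ˢ Icc (-(E : ℤ)) E := by
    apply product_subset_product _ subset_rfl
    apply Icc_subset_Icc <;> omega
  rw [← sum_subset hsub]
  · rw [sum_product, sum_mul_sum]
    refine sum_congr rfl fun k hk => sum_congr rfl fun m hm => ?_
    rw [mem_Icc] at hk hm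
    rw [if_pos]
    · have h1 : (fourier (k * Q + m) x : ℂ) = fourier k (Q • x) * fourier m x := by
        rw [fourier_add]
        congr 1
        rw [fourier_apply, fourier_apply]
        congr 2
        rw [← natCast_zsmul x Q, smul_smul]
      rw [h1]; ring
    · rw [mem_Icc]
      push_cast
      have hQ' : (2 * (E : ℤ)) < Q := by exact_mod_cast hQ
      constructor <;> nlinarith only [hk.1, hk.2, hm.1, hm.2, hQ', Int.natCast_nonneg E]
  · intro p hp hp'
    rw [if_neg]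
    intro hmem
    apply hp'
    rw [mem_product, mem_Icc, mem_Icc] at hp ⊢
    rw [mem_Icc] at hmem
    push_cast at hmem
    obtain ⟨⟨h1, h2⟩, h3, h4⟩ := hp
    obtain ⟨h5, h6⟩ := hmem
    have hQ' : (2 * (E : ℤ)) < Q := by exact_mod_cast hQ
    have hQ0 : (0 : ℤ) < Q := by omega
    refine ⟨⟨?_, ?_⟩, h3, h4⟩
    · by_contra hcon
      push Not at hcon
      have h7 : p.1 + 1 ≤ -(n : ℤ) := hcon
      have h8 : (p.1 + 1) * Q ≤ -(n : ℤ) * Q := mul_le_mul_of_nonneg_right h7 hQ0.le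
      nlinarith only [h8, h5, h4, hQ']
    · by_contra hcon
      push Not at hcon
      have h7 : (n : ℤ) + 1 ≤ p.1 := hcon
      have h8 : ((n : ℤ) + 1) * Q ≤ p.1 * Q := mul_le_mul_of_nonneg_right h7 hQ0.le
      nlinarith only [h8, h6, h3, hQ']

theorem mulC_zero (a : ℤ → ℂ) (d : ℕ) (c : ℤ → ℂ) (E Q : ℕ) (hQ : 2 * E < Q) :
    mulC a d c E Q 0 = a 0 * c 0 := by
  unfold mulC
  rw [sum_eq_single (0, 0)]
  · simp
  · intro p hp hne
    rw [if_neg]
    intro h0
    apply hne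
    rw [mem_product, mem_Icc, mem_Icc] at hp
    obtain ⟨⟨h1, h2⟩, h3, h4⟩ := hp
    have hQ' : (2 * (E : ℤ)) < Q := by exact_mod_cast hQ
    have hp1 : p.1 = 0 := by
      by_contra hne'
      rcases lt_or_gt_of_ne hne' with hlt | hgt
      · have h7 : p.1 * Q ≤ -1 * Q := mul_le_mul_of_nonneg_right (by omega) (by omega)
        omega
      · have h7 : 1 * (Q : ℤ) ≤ p.1 * Q := mul_le_mul_of_nonneg_right (by omega) (by omega)
        omega
    have hp2 : p.2 = 0 := by rw [hp1] at h0; omega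
    exact Prod.ext hp1 hp2
  · intro h
    exfalso
    apply h
    simp

/-- degrees of the iterated product -/
def chE (D q : ℕ) : ℕ → ℕ
  | 0 => 0
  | i + 1 => D * q ^ i + chE D q i

/-- coefficients of the iterated product -/
noncomputable def chC (b : ℤ → ℂ) (D q : ℕ) : ℕ → ℤ → ℂ
  | 0 => fun k => if k = 0 then 1 else 0
  | i + 1 => mulC b D (chC b D q i) (chE D q i) (q ^ i)

theorem chE_lt {D q : ℕ} (hq : 2 * D + 1 ≤ q) (i : ℕ) : 2 * chE D q i + 1 ≤ q ^ i := by
  induction i with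
  | zero => simp [chE]
  | succ i ih =>
    have h1 : (2 * D + 1) * q ^ i ≤ q * q ^ i := Nat.mul_le_mul_right _ hq
    rw [pow_succ', chE]
    nlinarith only [h1, ih]

theorem trigSum_chC (b : ℤ → ℂ) {D q : ℕ} (hq : 2 * D + 1 ≤ q) (i : ℕ) (x : AddCircle T) :
    trigSum (chC b D q i) (chE D q i) x = ∏ l ∈ range i, trigSum b D ((q ^ l) • x) := by
  induction i with
  | zero => simp [chC, chE, trigSum]
  | succ i ih =>
    have h1 := chE_lt hq i
    rw [chE, chC, trigSum_mulC _ _ _ _ _ _ (by omega) le_rfl, ih, prod_range_succ]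
    ring

theorem chC_zero (b : ℤ → ℂ) {D q : ℕ} (hq : 2 * D + 1 ≤ q) (i : ℕ) :
    chC b D q i 0 = b 0 ^ i := by
  induction i with
  | zero => simp [chC]
  | succ i ih =>
    have h1 := chE_lt hq i
    rw [chC, mulC_zero _ _ _ _ _ (by omega), ih, pow_succ']

end Vale.Agent.P091
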