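import Vale.Agent.P091.H690.Kappa

set_option linter.all false

namespace Vale.Agent.P091

open Finset MeasureTheory AddCircle

theorem norm_of_im_re {z : ℂ} (h1 : z.im = 0) (h2 : 0 ≤ z.re) : ‖z‖ = z.re := by
  have : z = ((z.re : ℝ) : ℂ) := by apply Complex.ext <;> simp [h1]
  rw [this, Complex.norm_real, Real.norm_of_nonneg h2, Complex.ofReal_re]

variable {T : ℝ} [hT : Fact (0 < T)]

theorem integral_norm_trig (c : ℤ → ℂ) (e : ℕ)
    (h : ∀ x : AddCircle T, (trigSum c e x).im = 0 ∧ 0 ≤ (trigSum c e x).re) :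
    ∫ x, ‖(trigSum c e x : ℂ)‖ ∂(haarAddCircle (T := T)) = (c 0).re := by
  have h0 : ∀ x : AddCircle T, ‖(trigSum c e x : ℂ)‖ = (trigSum c e x).re := fun x =>
    norm_of_im_re (h x).1 (h x).2
  simp only [h0]
  have h1 : ∫ x, (trigSum c e x).re ∂(haarAddCircle (T := T)) =
      (∫ x, trigSum c e x ∂(haarAddCircle (T := T))).re :=
    integral_re (integrable_of_continuous (continuous_trigSum c e))
  rw [h1, integral_trigSum]

theorem coef_le_one (a : ℤ → ℂ) (d : ℕ) (ha : ∀ k : ℤ, (d : ℤ) < |k| → a k = 0) (ha0 : a 0 = 1)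
    (h : ∀ x : AddCircle T, (trigSum a d x).im = 0 ∧ 0 ≤ (trigSum a d x).re) (k : ℤ) :
    ‖a k‖ ≤ 1 := by
  by_cases hk : (d : ℤ) < |k|
  · rw [ha k hk]; simp
  · have h1 := fourierCoeff_trigSum (T := T) a d k
    rw [if_pos (by rw [mem_Icc]; rw [← abs_le]; omega)] at h1
    rw [← h1]
    unfold fourierCoeff
    refine (norm_integral_le_integral_norm _).trans ?_
    have h2 : ∀ x : AddCircle T, ‖(fourier (-k) x : ℂ) • trigSum a d x‖ = ‖(trigSum a d x : ℂ)‖ := by
      intro x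
      rw [norm_smul, norm_fourier, one_mul]
    simp only [h2]
    rw [integral_norm_trig a d h, ha0, Complex.one_re]

theorem stage_core_growth (j q r d D : ℕ) (a b : ℤ → ℂ) (lam ex m : ℝ) (A κ : ℕ → ℝ)
    (ha0 : a 0 = 1)
    (hP : ∀ x : AddCircle T, (trigSum a d x).im = 0 ∧ 0 ≤ (trigSum a d x).re ∧
      (trigSum a d x).re ≤ ex)
    (hκ : ∀ x : AddCircle T, (trigSum b D x).im = 0 ∧ 0 ≤ (trigSum b D x).re ∧
      (trigSum b D x).re ≤ 2)
    (hκK : ∀ x : AddCircle T, (∀ n : ℕ, n ≤ d → ‖trigSum a n x‖ ≤ lam) → 1 ≤ (trigSum b D x).re)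
    (hb0 : b 0 = m) (hm0 : 0 ≤ m) (hm : m ≤ 1 / 16)
    (hqD : 2 * D + 1 ≤ q) (hqd : 2 * d + 1 ≤ q) (hq64 : 64 ≤ q) (hqe : 4 * ex ≤ q) (hex : 0 ≤ ex)
    (hlam : 0 < lam) (hr : lam ≤ 2 ^ r) (hA : ∀ i, 0 ≤ A i) (hκ0 : ∀ i, 0 ≤ κ i)
    (hN1 : ∀ i, A i / lam * (1 / 8) ^ i ≤ (1 / 2) ^ (j + i))
    (hN2 : ∀ i, κ i * (A i / lam * (1 / 8) ^ i) ≤ (1 / 2) ^ (j + i)) :
    ∃ (dd : ℕ → ℕ) (bb : ℕ → ℤ → ℂ), (∀ i, i ≤ r → 2 * dd i + 1 ≤ q ^ (i + 1)) ∧
      (∀ i, r < i → bb i = 0) ∧
      (∀ i, ∫ x, ‖(trigSum (bb i) (dd i) x : ℂ)‖ ∂(haarAddCircle (T := T)) ≤ (1 / 2) ^ (j + i)) ∧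
      (∀ i, κ i * ∫ x, ‖(trigSum (bb i) (dd i) x : ℂ)‖ ∂(haarAddCircle (T := T)) ≤
        (1 / 2) ^ (j + i)) ∧
      (∀ i, ∀ x : AddCircle T, ‖trigSum (bb i) (dd i) x‖ ≤ (1 / 2) ^ (j + i + 2) * (q : ℝ) ^ (i + 1)) ∧
      (∀ x : AddCircle T, ∃ i, i ≤ r ∧ ∃ n, n ≤ dd i ∧ A i ≤ ‖trigSum (bb i) n x‖) := by
  -- the product `χ_i`
  set X : ℕ → AddCircle T → ℝ := fun i x => ∏ l ∈ range i, (trigSum b D ((q ^ l) • x)).re with hX
  have hXc : ∀ i (x : AddCircle T), trigSum (chC b D q i) (chE D q i) x = ((X i x : ℝ) : ℂ) := by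
    intro i x
    rw [trigSum_chC b hqD]
    simp only [hX]
    push_cast
    refine prod_congr rfl fun l _ => ?_
    apply Complex.ext <;> simp [(hκ ((q ^ l) • x)).1]
  have hX0 : ∀ i (x : AddCircle T), 0 ≤ X i x := fun i x => prod_nonneg fun l _ => (hκ _).2.1
  have hX2 : ∀ i (x : AddCircle T), X i x ≤ 2 ^ i := by
    intro i x
    calc X i x ≤ ∏ l ∈ range i, (2 : ℝ) := prod_le_prod (fun l _ => (hκ _).2.1) fun l _ => (hκ _).2.2
      _ = 2 ^ i := by simp
  have hX1 : ∀ i (x : AddCircle T), (∀ l < i, ∀ n : ℕ, n ≤ d → ‖trigSum a n ((q ^ l) • x)‖ ≤ lam) →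
      1 ≤ X i x := by
    intro i x h
    calc (1 : ℝ) = ∏ l ∈ range i, (1 : ℝ) := by simp
      _ ≤ X i x := prod_le_prod (fun _ _ => zero_le_one) fun l hl => hκK _ (h l (mem_range.1 hl))
  have hE := chE_lt (D := D) (q := q) hqD
  have hq0 : (0 : ℝ) < q := by exact_mod_cast (by omega : 0 < q)
  have hq64r : (64 : ℝ) ≤ q := by exact_mod_cast hq64
  have hAl : ∀ i, 0 ≤ A i / lam := fun i => div_nonneg (hA i) hlam.le
  have h8 : ∀ i : ℕ, (0 : ℝ) < (1 / 8) ^ i := fun i => by positivity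
  have h168 : ∀ i : ℕ, (1 / 16 : ℝ) ^ i ≤ (1 / 8) ^ i := fun i => by gcongr; norm_num
  have hpm : ∀ i : ℕ, m ^ i ≤ (1 / 16) ^ i := fun i => by gcongr
  -- `A i / lam ≤ 8 ^ i (1/2)^(j+i)`
  have hA8 : ∀ i, A i / lam ≤ 8 ^ i * (1 / 2) ^ (j + i) := by
    intro i
    have h1 := mul_le_mul_of_nonneg_left (hN1 i) (by positivity : (0 : ℝ) ≤ 8 ^ i)
    have h2 : (8 : ℝ) ^ i * (1 / 8) ^ i = 1 := by rw [← mul_pow]; norm_num
    calc A i / lam = A i / lam * (8 ^ i * (1 / 8) ^ i) := by rw [h2, mul_one]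
      _ = 8 ^ i * (A i / lam * (1 / 8) ^ i) := by ring
      _ ≤ _ := h1
  refine ⟨fun i => if i < r then d * q ^ i + chE D q i else chE D q i,
    fun i => if i < r then fun k => ((A i / lam : ℝ) : ℂ) * mulC a d (chC b D q i) (chE D q i) (q ^ i) k
      else if i = r then fun k => ((A i : ℝ) : ℂ) * chC b D q i k else 0, ?_, ?_, ?_⟩
  · intro i hi
    have h1 := hE i
    have h2 : (2 * d + 1) * q ^ i ≤ q * q ^ i := Nat.mul_le_mul_right _ hqd
    have h3 : 1 * q ^ i ≤ q * q ^ i := Nat.mul_le_mul_right _ (by omega)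
    rw [pow_succ']
    beta_reduce
    split_ifs
    · nlinarith only [h1, h2]
    · nlinarith only [h1, h3]
  · intro i hi
    beta_reduce
    rw [if_neg (by omega), if_neg (by omega)]
  -- values of the blocks
  have hval1 : ∀ i, i < r → ∀ x : AddCircle T,
      trigSum (fun k => ((A i / lam : ℝ) : ℂ) * mulC a d (chC b D q i) (chE D q i) (q ^ i) k)
        (d * q ^ i + chE D q i) x =
        ((A i / lam * ((trigSum a d ((q ^ i) • x)).re * X i x) : ℝ) : ℂ) := by
    intro i hi x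
    rw [trigSum_smul, trigSum_mulC _ _ _ _ _ _ (by have := hE i; omega) le_rfl, hXc]
    push_cast
    congr 2
    apply Complex.ext <;> simp [(hP ((q ^ i) • x)).1]
  have hval2 : ∀ x : AddCircle T, trigSum (fun k => ((A r : ℝ) : ℂ) * chC b D q r k) (chE D q r) x =
      ((A r * X r x : ℝ) : ℂ) := by
    intro x
    rw [trigSum_smul, hXc]
    push_cast
    rfl
  have hi1 : ∀ i, i < r → ∫ x, ‖(trigSum (fun k => ((A i / lam : ℝ) : ℂ) *
      mulC a d (chC b D q i) (chE D q i) (q ^ i) k)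
        (d * q ^ i + chE D q i) x : ℂ)‖ ∂(haarAddCircle (T := T)) ≤ A i / lam * (1 / 8) ^ i := by
    intro i hi
    rw [integral_norm_trig]
    · rw [mulC_zero _ _ _ _ _ (by have := hE i; omega), ha0, chC_zero b hqD, hb0, one_mul]
      rw [← Complex.ofReal_pow, ← Complex.ofReal_mul, Complex.ofReal_re]
      exact mul_le_mul_of_nonneg_left ((hpm i).trans (h168 i)) (hAl i)
    · intro x
      rw [hval1 i hi, Complex.ofReal_im, Complex.ofReal_re]
      exact ⟨rfl, mul_nonneg (hAl i) (mul_nonneg (hP _).2.1 (hX0 i x))⟩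
  have hi2 : ∫ x, ‖(trigSum (fun k => ((A r : ℝ) : ℂ) * chC b D q r k) (chE D q r) x : ℂ)‖
      ∂(haarAddCircle (T := T)) ≤ A r / lam * (1 / 8) ^ r := by
    rw [integral_norm_trig]
    · rw [chC_zero b hqD, hb0]
      rw [← Complex.ofReal_pow, ← Complex.ofReal_mul, Complex.ofReal_re]
      have h1 : A r = A r / lam * lam := by field_simp
      have h2 : lam * m ^ r ≤ (1 / 8) ^ r := by
        calc lam * m ^ r ≤ 2 ^ r * (1 / 16) ^ r := by gcongr
          _ = (1 / 8) ^ r := by rw [← mul_pow]; norm_num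
      calc A r * m ^ r = A r / lam * (lam * m ^ r) := by field_simp
        _ ≤ _ := mul_le_mul_of_nonneg_left h2 (hAl r)
    · intro x
      rw [hval2, Complex.ofReal_im, Complex.ofReal_re]
      exact ⟨rfl, mul_nonneg (hA r) (hX0 r x)⟩
  have hiall : ∀ i, ∫ x, ‖(trigSum
      ((fun i => if i < r then fun k => ((A i / lam : ℝ) : ℂ) *
        mulC a d (chC b D q i) (chE D q i) (q ^ i) k
      else if i = r then fun k => ((A i : ℝ) : ℂ) * chC b D q i k else 0) i)
      ((fun i => if i < r then d * q ^ i + chE D q i else chE D q i) i) x : ℂ)‖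
      ∂(haarAddCircle (T := T)) ≤ A i / lam * (1 / 8) ^ i := by
    intro i
    rcases lt_trichotomy i r with h | h | h
    · simp only [if_pos h]
      exact hi1 i h
    · subst h
      simp only [lt_irrefl, if_false, if_true]
      exact hi2
    · simp only [if_neg (by omega : ¬ i < r), if_neg (by omega : ¬ i = r)]
      have : ∀ x : AddCircle T, trigSum (0 : ℤ → ℂ) (chE D q i) x = 0 := by
        intro x; simp [trigSum]
      simp only [this, norm_zero, integral_zero]
      exact mul_nonneg (hAl i) (h8 i).le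
  refine ⟨fun i => (hiall i).trans (hN1 i), fun i =>
    (mul_le_mul_of_nonneg_left (hiall i) (hκ0 i)).trans (hN2 i), ?_, ?_⟩
  · intro i x
    have hq2 : ∀ i : ℕ, (4 : ℝ) * 64 ^ i * ex ≤ (q : ℝ) ^ (i + 1) := by
      intro i
      calc (4 : ℝ) * 64 ^ i * ex = 64 ^ i * (4 * ex) := by ring
        _ ≤ (q : ℝ) ^ i * q := by gcongr
        _ = (q : ℝ) ^ (i + 1) := by ring
    rcases lt_trichotomy i r with h | h | h
    · simp only [if_pos h]
      rw [hval1 i h, Complex.norm_real, Real.norm_of_nonneg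
        (mul_nonneg (hAl i) (mul_nonneg (hP _).2.1 (hX0 i x)))]
      calc A i / lam * ((trigSum a d ((q ^ i) • x)).re * X i x) ≤
            (8 ^ i * (1 / 2) ^ (j + i)) * (ex * 2 ^ i) := by
              have h1 := hA8 i
              have h2 := (hP ((q ^ i) • x)).2.2
              have h3 := hX2 i x
              have h4 := hX0 i x
              have h5 := (hP ((q ^ i) • x)).2.1
              have h6 := hAl i
              gcongr
        _ = (1 / 2) ^ (j + i + 2) * (4 * 16 ^ i * ex) := by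
              have : (16 : ℝ) ^ i = 8 ^ i * 2 ^ i := by rw [← mul_pow]; norm_num
              rw [this, pow_add _ (j + i) 2]; ring
        _ ≤ (1 / 2) ^ (j + i + 2) * (4 * 64 ^ i * ex) := by gcongr; norm_num
        _ ≤ _ := by
              apply mul_le_mul_of_nonneg_left (hq2 i) (by positivity)
    · subst h
      simp only [lt_irrefl, if_false, if_true]
      rw [hval2, Complex.norm_real, Real.norm_of_nonneg (mul_nonneg (hA i) (hX0 i x))]
      calc A i * X i x = (A i / lam) * (lam * X i x) := by field_simp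
        _ ≤ (8 ^ i * (1 / 2) ^ (j + i)) * (2 ^ i * 2 ^ i) := by
              have h1 := hA8 i
              have h3 := hX2 i x
              have h4 := hX0 i x
              have h6 := hAl i
              gcongr
        _ = (1 / 2) ^ (j + i + 2) * (4 * 32 ^ i) := by
              have : (32 : ℝ) ^ i = 8 ^ i * (2 ^ i * 2 ^ i) := by rw [← mul_pow, ← mul_pow]; norm_num
              rw [this, pow_add _ (j + i) 2]; ring
        _ ≤ (1 / 2) ^ (j + i + 2) * (q : ℝ) ^ (i + 1) := by
              gcongr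
              calc (4 : ℝ) * 32 ^ i ≤ q * (q : ℝ) ^ i := by
                    gcongr
                    · linarith
                    · linarith
                _ = (q : ℝ) ^ (i + 1) := by ring
    · simp only [if_neg (by omega : ¬ i < r), if_neg (by omega : ¬ i = r)]
      have : trigSum (0 : ℤ → ℂ) (chE D q i) x = 0 := by simp [trigSum]
      rw [this, norm_zero]
      positivity
  · intro x
    by_cases hex : ∃ i, i < r ∧ ¬ (∀ n : ℕ, n ≤ d → ‖trigSum a n ((q ^ i) • x)‖ ≤ lam)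
    · classical
      obtain ⟨h1, h2⟩ := Nat.find_spec hex
      have h3 : ∀ l, l < Nat.find hex → ∀ n : ℕ, n ≤ d → ‖trigSum a n ((q ^ l) • x)‖ ≤ lam := by
        intro l hl
        have h4 := Nat.find_min hex hl
        by_contra hcon
        exact h4 ⟨hl.trans h1, hcon⟩
      set i := Nat.find hex with hi
      push Not at h2
      obtain ⟨n, hn, h2⟩ := h2
      refine ⟨i, h1.le, n * q ^ i + chE D q i, ?_, ?_⟩
      · simp only [if_pos h1]
        have := Nat.mul_le_mul_right (q ^ i) hn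
        omega
      · simp only [if_pos h1]
        rw [trigSum_smul, trigSum_mulC _ _ _ _ _ _ (by have := hE i; omega) hn, hXc, norm_mul,
          norm_mul, Complex.norm_real, Complex.norm_real, Real.norm_of_nonneg (hAl i),
          Real.norm_of_nonneg (hX0 i x)]
        have h5 := hX1 i x h3
        calc A i = A i / lam * (lam * 1) := by field_simp
          _ ≤ _ := by
            have h6 := hAl i
            gcongr
    · push Not at hex
      refine ⟨r, le_rfl, chE D q r, ?_, ?_⟩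
      · simp only [lt_irrefl, if_false, le_refl]
      · simp only [lt_irrefl, if_false, if_true]
        rw [hval2, Complex.norm_real, Real.norm_of_nonneg (mul_nonneg (hA r) (hX0 r x))]
        have h5 := hX1 r x hex
        calc A r = A r * 1 := by ring
          _ ≤ _ := mul_le_mul_of_nonneg_left h5 (hA r)

end Vale.Agent.P091
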