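import Vale.Agent.P091.H690.StageG

set_option linter.all false

namespace Vale.Agent.P091

open Finset MeasureTheory AddCircle

theorem sqrt_log_pow_le (q i : ℕ) (L : ℝ) (hq : 1 ≤ q) (hL : 0 ≤ L) (hlog : Real.log q ≤ 6 * L ^ 2) :
    Real.sqrt (Real.log ((q : ℝ) ^ (i + 2))) ≤ 3 * L * 2 ^ (i + 1) := by
  apply Real.sqrt_le_iff.2
  refine ⟨by positivity, ?_⟩
  rw [Real.log_pow]
  have h1 : ((i + 2 : ℕ) : ℝ) ≤ 4 ^ (i + 1) := by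
    have h2 : ∀ i : ℕ, i + 2 ≤ 4 ^ (i + 1) := by
      intro i
      induction i with
      | zero => norm_num
      | succ i ih => rw [pow_succ]; omega
    exact_mod_cast h2 i
  have h3 : 0 ≤ Real.log q := Real.log_natCast_nonneg q
  calc ((i + 2 : ℕ) : ℝ) * Real.log q ≤ 4 ^ (i + 1) * (6 * L ^ 2) := by gcongr
    _ ≤ 4 ^ (i + 1) * (9 * L ^ 2) := by gcongr; norm_num
    _ = (3 * L * 2 ^ (i + 1)) ^ 2 := by
      have : (4 : ℝ) ^ (i + 1) = (2 ^ (i + 1)) ^ 2 := by rw [← pow_mul, mul_comm, pow_mul]; norm_num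
      rw [this]; ring

/-- the numerical inequalities of a stage -/
theorem stage_numeric (j i : ℕ) (c' L η ψv S : ℝ) (hc' : 0 < c')
    (hL : 0 < L) (hη : η = c' / (48 * 8 ^ j)) (hψ : 0 < ψv)
    (hψS : ψv ≤ η * S) (hS : S ≤ 3 * L * 2 ^ (i + 1)) :
    2 ^ (j + 1) * ψv / (c' * L) * (1 / 8) ^ i ≤ (1 / 2) ^ (j + i) ∧
    2 ^ (j + i + 2) * (η * S / ψv) * (2 ^ (j + 1) * ψv / (c' * L) * (1 / 8) ^ i) ≤
      (1 / 2) ^ (j + i) := by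
  have hη0 : 0 < η := by rw [hη]; positivity
  have hlam : 0 < c' * L := by positivity
  obtain ⟨p, hp⟩ : ∃ p : ℝ, p = 2 ^ j := ⟨_, rfl⟩
  obtain ⟨s, hs⟩ : ∃ s : ℝ, s = 2 ^ i := ⟨_, rfl⟩
  have hp1 : 1 ≤ p := by rw [hp]; exact one_le_pow₀ (by norm_num)
  have hs1 : 1 ≤ s := by rw [hs]; exact one_le_pow₀ (by norm_num)
  have hp8 : (8 : ℝ) ^ j = p ^ 3 := by rw [hp, ← pow_mul, mul_comm, pow_mul]; norm_num
  have hs8 : (1 / 8 : ℝ) ^ i = 1 / s ^ 3 := by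
    rw [hs, ← pow_mul, mul_comm i 3, pow_mul, one_div_pow]; norm_num
  have hps : (1 / 2 : ℝ) ^ (j + i) = 1 / (p * s) := by rw [hp, hs, ← pow_add, one_div_pow]
  have h1 : η * S / (c' * L) ≤ 2 * s / (16 * p ^ 3) := by
    rw [div_le_iff₀ hlam]
    calc η * S ≤ η * (3 * L * 2 ^ (i + 1)) := by gcongr
      _ = (2 * s) / (16 * p ^ 3) * (c' * L) := by
        rw [hη, hp8, pow_succ 2 i, ← hs]; field_simp; ring
  have h3 : ψv / (c' * L) ≤ 2 * s / (16 * p ^ 3) := by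
    refine le_trans ?_ h1
    gcongr
  constructor
  · rw [hs8, hps, pow_succ 2 j, ← hp]
    have e1 : p * 2 * ψv / (c' * L) * (1 / s ^ 3) = 2 * p * (ψv / (c' * L)) / s ^ 3 := by field_simp
    rw [e1]
    calc 2 * p * (ψv / (c' * L)) / s ^ 3 ≤ 2 * p * (2 * s / (16 * p ^ 3)) / s ^ 3 := by gcongr
      _ = 1 / (4 * (p * s) * (p * s)) := by field_simp; ring
      _ ≤ 1 / (p * s) := by
        apply one_div_le_one_div_of_le (by positivity)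
        nlinarith [mul_le_mul hp1 hs1 zero_le_one (by linarith)]
  · rw [hs8, hps]
    have e1 : (2 : ℝ) ^ (j + i + 2) * (η * S / ψv) * (2 ^ (j + 1) * ψv / (c' * L) * (1 / s ^ 3)) =
        8 * p ^ 2 * s * (η * S / (c' * L)) / s ^ 3 := by
      rw [pow_add, pow_add, pow_succ 2 j, ← hp, ← hs]; field_simp; ring
    rw [e1]
    calc 8 * p ^ 2 * s * (η * S / (c' * L)) / s ^ 3 ≤ 8 * p ^ 2 * s * (2 * s / (16 * p ^ 3)) / s ^ 3 := by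
          gcongr
      _ = 1 / (p * s) := by field_simp; ring

variable {T : ℝ} [hT : Fact (0 < T)]

theorem stage_growth (φ : ℝ → ℝ) (ψ : ℕ → ℝ) (hψ0 : ∀ N, 0 < ψ N)
    (hψ : ∀ η : ℝ, 0 < η → ∃ N₀ : ℕ, ∀ m : ℕ, N₀ ≤ m → ψ m ≤ η * Real.sqrt (Real.log m))
    (hφψ : ∀ η : ℝ, 0 < η → ∃ N₀ : ℕ, ∀ m : ℕ, N₀ ≤ m → ∀ u : ℝ, 1 ≤ u → u ≤ m →
      φ u * ψ m ≤ η * (u * Real.sqrt (Real.log m))) (j M : ℕ) :
    ∃ (q r : ℕ) (dd : ℕ → ℕ) (bb : ℕ → ℤ → ℂ) (κ : ℕ → ℝ), 64 ≤ q ∧ M < q ∧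
      (∀ i, 0 ≤ κ i) ∧
      (∀ i, ∀ u : ℝ, 1 ≤ u → u ≤ (q : ℝ) ^ (i + 1) → 2 ^ (j + i + 2) * φ u ≤ κ i * u) ∧
      (∀ i, i ≤ r → 2 * dd i + 1 ≤ q ^ (i + 1)) ∧
      (∀ i, r < i → bb i = 0) ∧
      (∀ i, ∫ x, ‖(trigSum (bb i) (dd i) x : ℂ)‖ ∂(haarAddCircle (T := T)) ≤ (1 / 2) ^ (j + i)) ∧
      (∀ i, κ i * ∫ x, ‖(trigSum (bb i) (dd i) x : ℂ)‖ ∂(haarAddCircle (T := T)) ≤
        (1 / 2) ^ (j + i)) ∧
      (∀ i, ∀ x : AddCircle T, ‖trigSum (bb i) (dd i) x‖ ≤ (1 / 2) ^ (j + i + 2) * (q : ℝ) ^ (i + 1)) ∧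
      (∀ x : AddCircle T, ∃ i, i ≤ r ∧ ∃ n, n ≤ dd i ∧
        ∀ N : ℕ, q ^ (i + 1) ≤ N → N ≤ q ^ (i + 2) → 2 ^ (j + 1) * ψ N ≤ ‖trigSum (bb i) n x‖) := by
  obtain ⟨c, hc, Λ, hΛ, hML⟩ := main_lemma_three (T := T) (1 / 32) (by norm_num)
  obtain ⟨c', hc'⟩ : ∃ c' : ℝ, c' = c / 2 := ⟨_, rfl⟩
  have hc'0 : 0 < c' := by rw [hc']; positivity
  obtain ⟨η, hη⟩ : ∃ η : ℝ, η = c' / (48 * 8 ^ j) := ⟨_, rfl⟩
  have hη0 : 0 < η := by rw [hη]; positivity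
  obtain ⟨N₁, hN₁⟩ := hψ η hη0
  obtain ⟨N₂, hN₂⟩ := hφψ η hη0
  obtain ⟨N₀, hN₀⟩ : ∃ N₀ : ℕ, N₀ = N₁ + N₂ := ⟨_, rfl⟩
  obtain ⟨L0, hL0⟩ : ∃ L0 : ℝ, L0 = Λ + 1 / c' + N₀ + 1625 * (M + 64) := ⟨_, rfl⟩
  have hinv : 0 < 1 / c' := by positivity
  have hMr : (0 : ℝ) ≤ M := Nat.cast_nonneg M
  have hNr : (0 : ℝ) ≤ N₀ := Nat.cast_nonneg N₀
  obtain ⟨L, hL1, -, d, a, hasupp, ha0, haP, hdexp, hbad⟩ := hML L0 (by rw [hL0]; linarith)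
  have hLΛ : 1 / c' ≤ L := by rw [hL0] at hL1; linarith
  have hLN : (N₀ : ℝ) ≤ L := by rw [hL0] at hL1; linarith
  have hLM : 1625 * ((M : ℝ) + 64) ≤ L := by rw [hL0] at hL1; linarith
  have hLpos : 0 < L := by linarith
  have hL1' : 1 ≤ L := by linarith
  obtain ⟨lam, hlam⟩ : ∃ lam : ℝ, lam = c' * L := ⟨_, rfl⟩
  have hlam1 : 1 ≤ lam := by
    rw [hlam]
    rw [div_le_iff₀ hc'0] at hLΛ
    linarith
  have hlam0 : 0 < lam := by linarith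
  have hcL : c * L = 2 * lam := by rw [hlam, hc']; ring
  have hreal : ∀ x : AddCircle T, (trigSum a d x).im = 0 ∧ 0 ≤ (trigSum a d x).re := fun x =>
    ⟨(haP x).1, (haP x).2.1⟩
  obtain ⟨D, hD⟩ : ∃ D : ℕ, D = 2 * (2 * d + 1) ^ 4 := ⟨_, rfl⟩
  obtain ⟨b, hb1, hb2, m, hb0, hm0, hm⟩ := exists_kappa (T := T) a d D hD lam hlam1
    (coef_le_one (T := T) a d hasupp ha0 hreal) (1 / 32) (by norm_num) (by rw [← hcL]; exact hbad)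
  obtain ⟨ex, hexd⟩ : ∃ ex : ℝ, ex = Real.exp (L ^ 2) := ⟨_, rfl⟩
  have hex0 : 0 < ex := by rw [hexd]; exact Real.exp_pos _
  have hLex : L ≤ ex := by
    have h1 := Real.add_one_le_exp (L ^ 2)
    rw [hexd]
    nlinarith
  have hex1 : 1 ≤ ex := hL1'.trans hLex
  rw [← hexd] at haP hdexp
  obtain ⟨q, hq⟩ : ∃ q : ℕ, q = (2 * D + 1) * ((M + 64) * ⌈4 * ex⌉₊) := ⟨_, rfl⟩
  have hceil : 1 ≤ ⌈4 * ex⌉₊ := Nat.one_le_ceil_iff.2 (by positivity)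
  have hMc : 1 ≤ (M + 64) * ⌈4 * ex⌉₊ := Nat.one_le_iff_ne_zero.2 (by positivity)
  have hqD : 2 * D + 1 ≤ q := by rw [hq]; exact Nat.le_mul_of_pos_right _ hMc
  have hqd : 2 * d + 1 ≤ q := by
    refine le_trans ?_ hqD
    have : 2 * d + 1 ≤ (2 * d + 1) ^ 4 := Nat.le_self_pow (by norm_num) _
    rw [hD]; omega
  have hMq : M + 64 ≤ q := by
    rw [hq]
    calc M + 64 = 1 * ((M + 64) * 1) := by ring
      _ ≤ _ := Nat.mul_le_mul (by omega) (Nat.mul_le_mul_left _ hceil)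
  have hexq : 4 * ex ≤ q := by
    have h1 : 4 * ex ≤ ⌈4 * ex⌉₊ := Nat.le_ceil _
    have h2 : ⌈4 * ex⌉₊ ≤ q := by
      rw [hq]
      calc ⌈4 * ex⌉₊ = 1 * (1 * ⌈4 * ex⌉₊) := by ring
        _ ≤ _ := Nat.mul_le_mul (by omega) (Nat.mul_le_mul_right _ (by omega))
    exact h1.trans (by exact_mod_cast h2)
  have hqpos : (0 : ℝ) < q := by linarith
  have hlogq : Real.log q ≤ 6 * L ^ 2 := by
    rw [Real.log_le_iff_le_exp hqpos]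
    have h1 : (q : ℝ) = (2 * (2 * (2 * d + 1) ^ 4) + 1) * ((M + 64) * (⌈4 * ex⌉₊ : ℝ)) := by
      rw [hq, hD]; push_cast; ring
    have h2 : (⌈4 * ex⌉₊ : ℝ) ≤ 5 * ex := by
      have := (Nat.ceil_lt_add_one (by positivity : (0 : ℝ) ≤ 4 * ex)).le
      linarith
    have h3 : (2 * (d : ℝ) + 1) ≤ 3 * ex := by linarith
    have h4 : (2 * (2 * (2 * (d : ℝ) + 1) ^ 4) + 1) ≤ 325 * ex ^ 4 := by
      have h5 : (2 * (d : ℝ) + 1) ^ 4 ≤ (3 * ex) ^ 4 := by gcongr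
      have h6 : (1 : ℝ) ≤ ex ^ 4 := one_le_pow₀ hex1
      have h7 : (3 * ex) ^ 4 = 81 * ex ^ 4 := by ring
      linarith
    have h8 : Real.exp (6 * L ^ 2) = ex ^ 6 := by
      rw [hexd, ← Real.exp_nat_mul]; norm_num
    rw [h8, h1]
    calc (2 * (2 * (2 * (d : ℝ) + 1) ^ 4) + 1) * ((M + 64) * (⌈4 * ex⌉₊ : ℝ)) ≤
          (325 * ex ^ 4) * ((M + 64) * (5 * ex)) := by gcongr
      _ = (1625 * (M + 64)) * ex ^ 5 := by ring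
      _ ≤ ex * ex ^ 5 := by gcongr; linarith
      _ = ex ^ 6 := by ring
  obtain ⟨r, hr⟩ : ∃ r : ℕ, lam ≤ 2 ^ r := by
    refine ⟨⌈lam⌉₊, (Nat.le_ceil lam).trans ?_⟩
    exact_mod_cast (Nat.lt_two_pow_self (n := ⌈lam⌉₊)).le
  have hq1 : 1 ≤ q := by omega
  have hMi : ∀ i : ℕ, (q : ℝ) ≤ (q : ℝ) ^ (i + 1) := by
    intro i
    have h1 : (1 : ℝ) ≤ q := by exact_mod_cast hq1
    exact le_self_pow₀ h1 (by omega)
  have hN₀q : ∀ i : ℕ, N₀ ≤ q ^ (i + 1) := by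
    intro i
    have h2 : (N₀ : ℝ) ≤ ((q ^ (i + 1) : ℕ) : ℝ) := by
      push_cast
      have := hMi i
      linarith
    exact_mod_cast h2
  have hle12 : ∀ i : ℕ, q ^ (i + 1) ≤ q ^ (i + 2) := fun i =>
    Nat.pow_le_pow_right (by omega) (by omega)
  -- the maximum of `ψ` on the block
  have hmax : ∀ i : ℕ, ∃ N : ℕ, (q ^ (i + 1) ≤ N ∧ N ≤ q ^ (i + 2)) ∧
      ∀ N' : ℕ, q ^ (i + 1) ≤ N' → N' ≤ q ^ (i + 2) → ψ N' ≤ ψ N := by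
    intro i
    obtain ⟨N, hN, hN'⟩ := Finset.exists_max_image (Finset.Icc (q ^ (i + 1)) (q ^ (i + 2))) ψ
      ⟨q ^ (i + 1), Finset.mem_Icc.2 ⟨le_rfl, hle12 i⟩⟩
    exact ⟨N, Finset.mem_Icc.1 hN, fun N' h1 h2 => hN' N' (Finset.mem_Icc.2 ⟨h1, h2⟩)⟩
  choose W hW hWmax using hmax
  have hlogW : ∀ i : ℕ, Real.sqrt (Real.log (W i)) ≤ Real.sqrt (Real.log ((q : ℝ) ^ (i + 2))) := by
    intro i
    apply Real.sqrt_le_sqrt
    apply Real.log_le_log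
    · have h1 := (hW i).1
      have h2 : 0 < q ^ (i + 1) := Nat.pow_pos (by omega)
      exact_mod_cast (by omega : 0 < W i)
    · exact_mod_cast (hW i).2
  have hψq : ∀ i : ℕ, ψ (W i) ≤ η * Real.sqrt (Real.log ((q : ℝ) ^ (i + 2))) := by
    intro i
    have h1 := hN₁ (W i) (by have := hN₀q i; have := (hW i).1; omega)
    exact h1.trans (mul_le_mul_of_nonneg_left (hlogW i) hη0.le)
  have hnum : ∀ i : ℕ, 2 ^ (j + 1) * ψ (W i) / (c' * L) * (1 / 8) ^ i ≤ (1 / 2) ^ (j + i) ∧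
      2 ^ (j + i + 2) * (η * Real.sqrt (Real.log ((q : ℝ) ^ (i + 2))) / ψ (W i)) *
        (2 ^ (j + 1) * ψ (W i) / (c' * L) * (1 / 8) ^ i) ≤ (1 / 2) ^ (j + i) := fun i =>
    stage_numeric j i c' L η (ψ (W i)) (Real.sqrt (Real.log ((q : ℝ) ^ (i + 2)))) hc'0 hLpos
      hη (hψ0 _) (hψq i) (sqrt_log_pow_le q i L hq1 hLpos.le hlogq)
  have hκ0 : ∀ i : ℕ, 0 ≤ (2 : ℝ) ^ (j + i + 2) *
      (η * Real.sqrt (Real.log ((q : ℝ) ^ (i + 2))) / ψ (W i)) := fun i => by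
    have := hψ0 (W i)
    positivity
  obtain ⟨dd, bb, h1, h2, h3, h4, h5, h6⟩ := stage_core_growth (T := T) j q r d D a b lam ex m
    (fun i => 2 ^ (j + 1) * ψ (W i))
    (fun i => 2 ^ (j + i + 2) * (η * Real.sqrt (Real.log ((q : ℝ) ^ (i + 2))) / ψ (W i)))
    ha0 haP hb1 hb2 hb0 hm0 (by linarith) hqD hqd (by omega) hexq hex0.le hlam0 hr
    (fun i => by have := hψ0 (W i); positivity) hκ0
    (fun i => by rw [hlam]; exact (hnum i).1)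
    (fun i => by rw [hlam]; exact (hnum i).2)
  refine ⟨q, r, dd, bb, _, by omega, by omega, hκ0, ?_, h1, h2, h3, h4, h5, ?_⟩
  · intro i u hu1 huq
    have huW : u ≤ (W i : ℝ) := by
      have h9 : ((q ^ (i + 1) : ℕ) : ℝ) ≤ W i := by exact_mod_cast (hW i).1
      push_cast at h9
      linarith
    have h7 := hN₂ (W i) (by have := hN₀q i; have := (hW i).1; omega) u hu1 huW
    have h8 : φ u ≤ η * Real.sqrt (Real.log ((q : ℝ) ^ (i + 2))) / ψ (W i) * u := by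
      rw [div_mul_eq_mul_div, le_div_iff₀ (hψ0 _)]
      have hu0 : 0 ≤ u := by linarith
      have h10 : η * (u * Real.sqrt (Real.log (W i))) ≤
          η * (u * Real.sqrt (Real.log ((q : ℝ) ^ (i + 2)))) :=
        mul_le_mul_of_nonneg_left (mul_le_mul_of_nonneg_left (hlogW i) hu0) hη0.le
      linarith
    calc 2 ^ (j + i + 2) * φ u ≤ 2 ^ (j + i + 2) *
          (η * Real.sqrt (Real.log ((q : ℝ) ^ (i + 2))) / ψ (W i) * u) := by gcongr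
      _ = _ := by ring
  · intro x
    obtain ⟨i, hi, n, hn, h7⟩ := h6 x
    refine ⟨i, hi, n, hn, fun N hN1 hN2 => ?_⟩
    refine le_trans ?_ h7
    have := hWmax i N hN1 hN2
    gcongr

end Vale.Agent.P091
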